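import Vale.Agent.P032.H286.W73

/-!
# P032: the ends of the certificates of the blocks X1 (equal colours) and (5, 4)

* `hx7` : the seven points of the clauses of accumulation,
* `x1b_of` : the block X1, equal colours, `x54_of` : the block (5, 4) with a condition `Q`.
-/

namespace Vale.Agent.P032.H286.E

open Vale.Agent.P032.H820.K Vale.Agent.P032.H357.MK Vale.Agent.P032.H61 Vale.Agent.P032.H357 Vale.Agent.P032.H892
open Vale.Agent.P032.H61.TF Vale.Agent.P032.BlkE Vale.Agent.P032.BlkV Vale.Agent.P032.BlkS Vale.Agent.P032.Fam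
open Vale.Agent.P032.TW Vale.Agent.P032.H357.SymV

/-- the points of the clauses of accumulation -/
def xs7 : List ℕ := [0, 1, 3, 5, 7, 9, 11]

theorem hx7 : ∀ x ∈ xs7, Gp 73 TF.TC x := by
  intro x hx
  have h : (xs7.all fun x => Nat.blt x 73 && fx0 TF.TC x) = true := by decide +kernel
  have h2 := List.all_eq_true.1 h x hx
  rw [Bool.and_eq_true] at h2
  exact ⟨Nat.lt_of_lt_of_le (Nat.le_of_ble_eq_true h2.1) le_rfl, h2.2⟩

/-- **X1, equal colours** -/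
theorem x1b_of {t1 t2 : PTr} (h1 : D1 t1) (h2 : D2 t2) {cs : List ℕ}
    (q : Qy 73 73 TBm (cs.map (mX3 (EX1b xs7) [] t1 t2 PX 120 PX 120 TG (n5eC 73 TF.TB)))) :
    Dead (kap TF.TC) (CW N55E 5 5 73 TF.TC) [] := by
  rw [tbm_eq] at q
  exact x1_b h1 h2 hx7 q

/-- **a block (5, 4)** -/
theorem x54_of {Q : (ℂ → Set (Fin 6)) → Prop} (hQ : BlkE.Inv Q) {t1 t2 : PTr} (h1 : DQ Q t1)
    (h2 : DC (CW Q 5 4 73 TF.TC) t2) {f : ℕ → List ℕ}
    (hf : ∀ F (M : Md 2 73 73 (nbf 2 TF.TB)), CW Q 5 4 73 TF.TC F → Mdl (tb (le_refl 73)) F M → ∀ c, Ho M (f c))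
    {cs : List ℕ} (q : Qy 73 73 TBm (cs.map (mX3 (EXm xs7) [] t1 t2 PX 120 PX 120 TG f))) :
    Dead (kap TF.TC) (CW Q 5 4 73 TF.TC) [] := by
  rw [tbm_eq] at q
  exact master hQ h1 h2 hx7 hf q

/-- the words of X1, base clauses `EX1w xs7` -/
theorem d2_of7 {t1 : PTr} (ht1 : D1 t1) {t : PTr} {L : List (List ℕ)} (h : chT 73 73 TCm t L = true)
    (hL : ∀ P ∈ L, Wx (EX1w xs7) t1 (n5eC 73 TF.TB) P) : D2 t := d2_of ht1 hx7 h hL

/-- the words of a block (5, 4), base clauses `EXw xs7` -/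
theorem dc_of7 {Q : (ℂ → Set (Fin 6)) → Prop} (hQ : BlkE.Inv Q) {t1 : PTr} (ht1 : DQ Q t1) {f : ℕ → List ℕ}
    (hf : ∀ F (M : Md 2 73 73 (nbf 2 TF.TB)), CW Q 5 4 73 TF.TC F → Mdl (tb (le_refl 73)) F M → ∀ c, Ho M (f c))
    {t : PTr} {L : List (List ℕ)} (h : chT 73 73 TCm t L = true) (hL : ∀ P ∈ L, Wx (EXw xs7) t1 f P) :
    DC (CW Q 5 4 73 TF.TC) t := dc_of hQ ht1 hx7 hf h hL

end Vale.Agent.P032.H286.E
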