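import Vale.Agent.P032.H286.A73

/-!
# P032: words in the letters of the centre (class of all frames with a five-coloured centre and a condition)

* `dqw_of` : the tree of a list of words which are refuted with base clauses `EX xs7`, images of a tree and a function,
  in the class `CQ Q 5` (all 12 elements are legal for their images),
* `x54_of'` : the block (5, 4) from one tree of this class.
-/

namespace Vale.Agent.P032.H286.E

open Vale.Agent.P032.H820.K Vale.Agent.P032.H357.MK Vale.Agent.P032.H61 Vale.Agent.P032.H357 Vale.Agent.P032.H892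
open Vale.Agent.P032.H61.TF Vale.Agent.P032.BlkE Vale.Agent.P032.BlkV Vale.Agent.P032.BlkS Vale.Agent.P032.Fam
open Vale.Agent.P032.TW Vale.Agent.P032.H357.SymV

/-- **the tree of a list of words in the class of all frames with a five-coloured centre and `Q`** -/
theorem dqw_of {Q : (ℂ → Set (Fin 6)) → Prop} (hQ : BlkE.Inv Q) {t1 : PTr} (ht1 : DQ Q t1) {f : ℕ → List ℕ}
    (hf : ∀ F (M : Md 2 73 73 (nbf 2 TF.TB)), CQ Q 5 73 TF.TC F → Mdl (tb (le_refl 73)) F M → ∀ c, Ho M (f c))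
    {t : PTr} {L : List (List ℕ)} (h : chT 73 73 TCm t L = true) (hL : ∀ P ∈ L, Wx (EX xs7) t1 f P) : DQ Q t :=
  tr_wx (fun _ hF => hF.cn.ok) (fun _ hF => hF) (fun _ hF => hF.rot tabs73 le_rfl) (fun _ hF => hF.mir hQ tabs73 le_rfl)
    (okPTQ_of okN5) ht1 (fun _ _ hF hM => ho_EX hM ⟨hF.cn.ok, hF.cn.2⟩ kap_zero gp_zero hx7) hf h hL

/-- **a block (5, 4) from one tree** -/
theorem x54_of' {Q : (ℂ → Set (Fin 6)) → Prop} (hQ : BlkE.Inv Q) {t1 : PTr} (h1 : DQ Q t1) {f : ℕ → List ℕ}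
    (hf : ∀ F (M : Md 2 73 73 (nbf 2 TF.TB)), CW Q 5 4 73 TF.TC F → Mdl (tb (le_refl 73)) F M → ∀ c, Ho M (f c))
    {cs : List ℕ} (q : Qy 73 73 TBm (cs.map (mX3 (EXm xs7) [] t1 t1 PX 120 PX 120 TG f))) :
    Dead (kap TF.TC) (CW Q 5 4 73 TF.TC) [] :=
  x54_of hQ h1 (DC.mono h1 fun _ hF => hF.cq) hf q

/-- functions: images of `tr`, `N55` -/
theorem f2q {tr : PTr} (htr : DQ N55 tr) : ∀ F (M : Md 2 73 73 (nbf 2 TF.TB)), CQ N55 5 73 TF.TC F →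
    Mdl (tb (le_refl 73)) F M → ∀ c, Ho M (fam2 (imX 5 tr) c) :=
  fun _ _ hF hM c => fam2_ho hF hM (fun c => imQ_ho inv_n55 hF.q hM htr c) c

theorem f2q0 : ∀ F (M : Md 2 73 73 (nbf 2 TF.TB)), CQ N55 5 73 TF.TC F →
    Mdl (tb (le_refl 73)) F M → ∀ c, Ho M (fam2 im0 c) :=
  fun _ M hF hM c => fam2_ho hF hM (fun _ => ho_trv M) c

theorem f3q {tr : PTr} (htr : DQ Fam.Q3 tr) : ∀ F (M : Md 2 73 73 (nbf 2 TF.TB)), CQ Fam.Q3 5 73 TF.TC F →
    Mdl (tb (le_refl 73)) F M → ∀ c, Ho M (Fam.fam3 (imX 5 tr) c) :=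
  fun _ _ hF hM c => Fam.fam3_ho hF hM (fun c => imQ_ho inv_q3 hF.q hM htr c) c

theorem f3q0 : ∀ F (M : Md 2 73 73 (nbf 2 TF.TB)), CQ Fam.Q3 5 73 TF.TC F →
    Mdl (tb (le_refl 73)) F M → ∀ c, Ho M (Fam.fam3 im0 c) :=
  fun _ M hF hM c => Fam.fam3_ho hF hM (fun _ => ho_trv M) c

theorem f2w {tr : PTr} (htr : DQ N55 tr) : ∀ F (M : Md 2 73 73 (nbf 2 TF.TB)), CW N55 5 4 73 TF.TC F →
    Mdl (tb (le_refl 73)) F M → ∀ c, Ho M (fam2 (imX 5 tr) c) := fun F M hF => f2q htr F M hF.cq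

theorem f2w0 : ∀ F (M : Md 2 73 73 (nbf 2 TF.TB)), CW N55 5 4 73 TF.TC F →
    Mdl (tb (le_refl 73)) F M → ∀ c, Ho M (fam2 im0 c) := fun F M hF => f2q0 F M hF.cq

theorem f3w {tr : PTr} (htr : DQ Fam.Q3 tr) : ∀ F (M : Md 2 73 73 (nbf 2 TF.TB)), CW Fam.Q3 5 4 73 TF.TC F →
    Mdl (tb (le_refl 73)) F M → ∀ c, Ho M (Fam.fam3 (imX 5 tr) c) := fun F M hF => f3q htr F M hF.cq

theorem f3w0 : ∀ F (M : Md 2 73 73 (nbf 2 TF.TB)), CW Fam.Q3 5 4 73 TF.TC F →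
    Mdl (tb (le_refl 73)) F M → ∀ c, Ho M (Fam.fam3 im0 c) := fun F M hF => f3q0 F M hF.cq

/-- a tree for `N55` is a tree for both conditions -/
theorem dq3_of_2 {t : PTr} (h : DQ N55 t) : DQ Fam.Q3 t := DQ.mono h fun _ hT => hT.1

end Vale.Agent.P032.H286.E
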