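import Vale.Agent.P032.H286.Row2

/-!
# P032: the engine with one mask of dead literals (clauses)

Every mask which the engine uses as a clause contains a literal which holds.
-/

namespace Vale.Agent.P032.H286.E

open Vale.Agent.P032.H820.K

variable {NP NW : ℕ} {nbr : ℕ → ℕ → ℕ} {TB WN : ℕ} {M : Md 2 NP NW nbr} {q : ℕ}

theorem CV.br {b : Bool} {x y : ℕ} (h1 : b = true → CV M x) (h2 : b = false → CV M y) : CV M (E.br b x y) :=
  br_ind h1 h2

theorem CV.tru : CV M (tru NP NW) := by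
  refine ⟨6 * SS NP NW, ?_, ?_⟩
  · unfold E.tru
    rw [r_sl, r_mul, cs_eq, Nat.one_shiftLeft, Nat.testBit_two_pow]
    simp
  · unfold hl
    rw [if_neg (lt_irrefl _)]
    exact trivial

theorem sl_bit {m s i : ℕ} (h : m.testBit i = true) : (Nat.shiftLeft m s).testBit (s + i) = true := by
  rw [r_sl, Nat.testBit_shiftLeft]
  simp [h]

theorem one_bit (s : ℕ) : (Nat.shiftLeft 1 s).testBit s = true := by
  have h : (1 : ℕ).testBit 0 = true := by decide
  have := sl_bit (s := s) h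
  rwa [add_zero] at this

theorem lor_l {a b i : ℕ} (h : a.testBit i = true) : (Nat.lor a b).testBit i = true := by
  rw [r_lor, Nat.testBit_or, h]; rfl

theorem lor_r {a b i : ℕ} (h : b.testBit i = true) : (Nat.lor a b).testBit i = true := by
  rw [r_lor, Nat.testBit_or, h, Bool.or_true]

/-- a literal of a point -/
theorem hl_pt {x l : ℕ} (hq6 : q < 6) (hx : x < NP) (h8 : l < 128) (h : pt M q x l) : hl M (pos NP NW q x l) := by
  rw [hl_pos hq6 (by omega) h8, hq_pt hx]; exact h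

theorem hl_wd {x l : ℕ} (hq6 : q < 6) (hx : x < NW) (h8 : l < 128) (h : wd M q x l) :
    hl M (pos NP NW q (NP + 1 + x) l) := by
  rw [hl_pos hq6 (by omega) h8, hq_wd hx]; exact h

theorem hl_bt {x l : ℕ} (hq6 : q < 6) (hx : x < NW) (h8 : l < 128) (h : bt M q x l) :
    hl M (pos NP NW q (NP + 1 + NW + x) l) := by
  rw [hl_pos hq6 (by omega) h8, hq_bt hx]; exact h

theorem pos_pt (q x l : ℕ) : pos NP NW q x l = pos NP NW q x 0 + l := by rw [pos_eq, pos_eq]; omega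

theorem pos_w (q x l : ℕ) : pos NP NW q (NP + 1 + x) l = q * cs NP NW + (wb NP x + l) := by
  rw [pos_eq, cs_eq, wb_eq]

theorem pos_b (q x l : ℕ) : pos NP NW q (NP + 1 + NW + x) l = q * cs NP NW + (bb NP NW x + l) := by
  rw [pos_eq, cs_eq, bb_eq]

/-- the germs of a cell -/
theorem cl_cell {x a : ℕ} (hx : x < NP) (ha : a < 48) : CV M (Nat.shiftLeft (cel NP NW) (Nat.add (Nat.mul 128 x) a)) := by
  obtain ⟨hk, hj, hj'⟩ := cell_lt ha
  obtain ⟨r, hr, h⟩ := M.cell hk hx hj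
  refine ⟨pos NP NW r x a, ?_, hl_pt hr hx (by omega) ((pt_V ha).2 h)⟩
  have e : pos NP NW r x a = (Nat.add (Nat.mul 128 x) a) + r * SS NP NW := by
    rw [pos_eq]; simp only [r_add, r_mul]; omega
  rw [e]
  exact sl_bit (cel_bit.2 ⟨r, hr, rfl⟩)

theorem M48_bit {i : ℕ} (h : i < 48) : M48.testBit i = true := by
  rw [M48_eq, Nat.testBit_two_pow_sub_one, decide_eq_true_eq]; exact h

theorem cl_T {x a : ℕ} (hx : x < NP) (ha : a < 6) :
    CV M (Nat.shiftLeft (Nat.lor M48 (Nat.shiftLeft 1 121)) (pos NP NW a x 0)) := by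
  by_cases h : M.T x a
  · obtain ⟨k, hk, j, hj, h1⟩ := M.tv hx ha h
    have e1 : (12 * k + j) / 12 = k := by omega
    have e2 : (12 * k + j) % 12 = j := by omega
    refine ⟨pos NP NW a x (12 * k + j), ?_, hl_pt ha hx (by omega) ((pt_V (by omega)).2 ?_)⟩
    · rw [pos_pt a x (12 * k + j)]
      exact sl_bit (i := 12 * k + j) (lor_l (M48_bit (i := 12 * k + j) (by omega)))
    · rw [e1, e2]; exact h1
  · refine ⟨pos NP NW a x 121, ?_, hl_pt ha hx (by omega) (pt_121.2 h)⟩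
    have e : pos NP NW a x 121 = pos NP NW a x 0 + 121 := pos_pt a x 121
    rw [e]; exact sl_bit (i := 121) (lor_r (one_bit 121))

theorem cl_P {x a : ℕ} (hx : x < NP) (ha : a < 6) :
    CV M (Nat.shiftLeft (Nat.lor (Nat.shiftLeft M48 48) (Nat.shiftLeft 1 123)) (pos NP NW a x 0)) := by
  by_cases h : M.P x a
  · obtain ⟨k, hk, j, hj, h1⟩ := M.ppv hx ha h
    have e1 : (48 + (12 * k + j) - 48) / 12 = k := by omega
    have e2 : (48 + (12 * k + j) - 48) % 12 = j := by omega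
    refine ⟨pos NP NW a x (48 + (12 * k + j)), ?_, hl_pt ha hx (by omega) ((pt_PV (by omega) (by omega)).2 ?_)⟩
    · rw [pos_pt a x (48 + (12 * k + j))]
      exact sl_bit (i := 48 + (12 * k + j)) (lor_l (sl_bit (i := 12 * k + j) (M48_bit (i := 12 * k + j) (by omega))))
    · rw [e1, e2]; exact h1
  · refine ⟨pos NP NW a x 123, ?_, hl_pt ha hx (by omega) (pt_123.2 h)⟩
    have e : pos NP NW a x 123 = pos NP NW a x 0 + 123 := pos_pt a x 123
    rw [e]; exact sl_bit (i := 123) (lor_r (one_bit 123))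

/-- bits of all colours except one -/
theorem celx_pt {x l r : ℕ} (hr : r < 6) (ha : q < 6) (hrq : r ≠ q) :
    (Nat.shiftLeft (celx NP NW q) (Nat.add (Nat.mul 128 x) l)).testBit (pos NP NW r x l) = true := by
  have e : pos NP NW r x l = (Nat.add (Nat.mul 128 x) l) + r * SS NP NW := by
    rw [pos_eq]; simp only [r_add, r_mul]; omega
  rw [e]
  exact sl_bit ((celx_bit ha).2 ⟨r, hr, hrq, rfl⟩)

theorem cel_pt {x l r : ℕ} (hr : r < 6) :
    (Nat.shiftLeft (cel NP NW) (Nat.add (Nat.mul 128 x) l)).testBit (pos NP NW r x l) = true := by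
  have e : pos NP NW r x l = (Nat.add (Nat.mul 128 x) l) + r * SS NP NW := by
    rw [pos_eq]; simp only [r_add, r_mul]; omega
  rw [e]
  exact sl_bit (cel_bit.2 ⟨r, hr, rfl⟩)

theorem pos0 (x l : ℕ) : pos NP NW 0 x l = Nat.add (Nat.mul 128 x) l := by
  rw [pos_eq, zero_mul, zero_add]; rfl

theorem cl_xx2 {x a : ℕ} (hx : x < NP) (ha : a < 6) :
    CV M (Nat.lor (Nat.shiftLeft (celx NP NW a) (Nat.add (Nat.mul 128 x) 120))
      (Nat.lor (Nat.shiftLeft 1 (pos NP NW a x 121)) (Nat.shiftLeft 1 (Nat.add (Nat.mul 128 x) 125)))) := by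
  by_cases hT : M.T x a
  · by_cases hX : M.X x
    · obtain ⟨r, hr, hra, h⟩ := M.xx2 hx ha hX hT
      exact ⟨pos NP NW r x 120, lor_l (celx_pt hr ha hra), hl_pt hr hx (by omega) (pt_120.2 h)⟩
    · refine ⟨pos NP NW 0 x 125, lor_r (lor_r ?_), hl_pt (by norm_num) hx (by omega) (pt_125.2 ⟨rfl, hX⟩)⟩
      rw [pos0]; exact one_bit _
  · exact ⟨pos NP NW a x 121, lor_r (lor_l (one_bit _)), hl_pt ha hx (by omega) (pt_121.2 hT)⟩

theorem cl_five {x : ℕ} (hx : x < NP) : CV M (Nat.shiftLeft (cel NP NW) (Nat.add (Nat.mul 128 x) 121)) := by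
  obtain ⟨r, hr, h⟩ := M.five hx
  exact ⟨pos NP NW r x 121, cel_pt hr, hl_pt hr hx (by omega) (pt_121.2 h)⟩

theorem cl_four {x a : ℕ} (hx : x < NP) (ha : a < 6) (h4 : ∃ r < 6, r ≠ a ∧ ¬ M.T x r) :
    CV M (Nat.shiftLeft (celx NP NW a) (Nat.add (Nat.mul 128 x) 121)) := by
  obtain ⟨r, hr, hra, h⟩ := h4
  exact ⟨pos NP NW r x 121, celx_pt hr ha hra, hl_pt hr hx (by omega) (pt_121.2 h)⟩

theorem tb24 {i : ℕ} (h : i < 24) : (16777215 : ℕ).testBit i = true := by
  have e : (16777215 : ℕ) = 2 ^ 24 - 1 := by norm_num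
  rw [e, Nat.testBit_two_pow_sub_one, decide_eq_true_eq]; exact h

theorem cl_hull {x a : ℕ} (hx : x < NP) (ha : a < 6) :
    CV M (Nat.lor (Nat.shiftLeft (Nat.lor (Nat.shiftLeft 16777215 96) (Nat.shiftLeft 1 121)) (pos NP NW a x 0))
          (Nat.shiftLeft 1 (Nat.add (Nat.mul 128 x) 125))) := by
  by_cases hT : M.T x a
  · by_cases hX : M.X x
    · obtain ⟨s, hs, h | h⟩ := M.hull hx ha hT hX
      · refine ⟨pos NP NW a x (96 + s), lor_l ?_, hl_pt ha hx (by omega) ((pt_E (by omega) (by omega)).2 ?_)⟩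
        · rw [pos_pt a x (96 + s)]
          exact sl_bit (i := 96 + s) (lor_l (sl_bit (i := s) (tb24 (i := s) (by omega))))
        · have e : 96 + s - 96 = s := by omega
          rw [e]; exact fun k hk j hj => h k hk j (by omega)
      · refine ⟨pos NP NW a x (96 + (12 + s)), lor_l ?_, hl_pt ha hx (by omega) ((pt_F (by omega) (by omega)).2 ?_)⟩
        · rw [pos_pt a x (96 + (12 + s))]
          exact sl_bit (i := 96 + (12 + s)) (lor_l (sl_bit (i := 12 + s) (tb24 (i := 12 + s) (by omega))))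
        · have e : 96 + (12 + s) - 108 = s := by omega
          rw [e]; exact fun k hk j hj => h k hk j (by omega)
    · refine ⟨pos NP NW 0 x 125, lor_r ?_, hl_pt (by norm_num) hx (by omega) (pt_125.2 ⟨rfl, hX⟩)⟩
      rw [pos0]; exact one_bit _
  · refine ⟨pos NP NW a x 121, lor_l ?_, hl_pt ha hx (by omega) (pt_121.2 hT)⟩
    have e : pos NP NW a x 121 = pos NP NW a x 0 + 121 := pos_pt a x 121
    rw [e]; exact sl_bit (i := 121) (lor_r (one_bit 121))

theorem cl_xxp (H : Tab NP NW nbr TB WN) {x a b : ℕ} (hx : x < NP) (ha : a < 12) (hb : b < 6) (hy : nb TB x a < NP) :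
    CV M (Nat.lor (Nat.shiftLeft 1 (Nat.add (Nat.mul 128 x) 124)) (Nat.lor (Nat.shiftLeft 1 (pos NP NW b x 121))
            (Nat.shiftLeft 1 (pos NP NW b (nb TB x a) 123)))) := by
  rcases H.nb hx ha with h5 | ⟨h5, h6, h7⟩
  · omega
  by_cases hT : M.T x b
  · by_cases hP : M.P (nb TB x a) b
    · refine ⟨pos NP NW 0 x 124, lor_l ?_, hl_pt (by norm_num) hx (by omega) (pt_124.2 ⟨rfl, ?_⟩)⟩
      · rw [pos0]; exact one_bit _
      · exact M.xxp (t := a) hx (by omega) hb (by rw [h6]; exact h5) hT (by rw [h6]; exact hP)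
    · exact ⟨pos NP NW b (nb TB x a) 123, lor_r (lor_r (one_bit _)), hl_pt hb hy (by omega) (pt_123.2 hP)⟩
  · exact ⟨pos NP NW b x 121, lor_r (lor_l (one_bit _)), hl_pt hb hx (by omega) (pt_121.2 hT)⟩

theorem cl_let {x a : ℕ} (hx : x < NW) (ha : a < 48) : CV M (Nat.shiftLeft (cel NP NW) (Nat.add (wb NP x) a)) := by
  obtain ⟨a1, a2, a3, a4⟩ := lit_lt ha
  have h := M.wlt (x := x) (t := a / 4) (sd := a / 2 % 2) (io := a % 2) hx a1 a2 a3
  refine ⟨_, ?_, hl_wd (l := a) h hx (by omega) ((wd_W ha).2 rfl)⟩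
  have e : ∀ r, pos NP NW r (NP + 1 + x) a = (Nat.add (wb NP x) a) + r * SS NP NW := fun r => by
    rw [pos_w, cs_eq]; simp only [r_add]; omega
  rw [e]
  exact sl_bit (cel_bit.2 ⟨_, h, rfl⟩)

/-- the two letters at a tick -/
theorem lt2 {a : ℕ} (ha : a < 24) : 2 * a / 4 = a / 2 ∧ 2 * a / 2 % 2 = a % 2 ∧ 2 * a % 2 = 0 ∧ (2 * a + 1) / 4 = a / 2 ∧
    (2 * a + 1) / 2 % 2 = a % 2 ∧ (2 * a + 1) % 2 = 1 ∧ a / 2 < 6 * 2 ∧ a % 2 < 2 := by omega

theorem posn0 (b x a : ℕ) : Nat.add (Nat.mul b (cs NP NW)) (Nat.add (wb NP x) (Nat.add 48 (Nat.mul 2 a))) =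
    pos NP NW b (NP + 1 + x) (48 + 2 * a) := by rw [pos_w]; rfl

theorem posn1 (b x a : ℕ) : Nat.add (Nat.mul b (cs NP NW)) (Nat.add (wb NP x) (Nat.add 49 (Nat.mul 2 a))) =
    pos NP NW b (NP + 1 + x) (48 + (2 * a + 1)) := by rw [pos_w]; simp only [r_add, r_mul]; omega

theorem hl_n0 {x a : ℕ} (hx : x < NW) (ha : a < 24) (hq6 : q < 6) (h : M.W x (a / 2) (a % 2) 0 ≠ q) :
    hl M (pos NP NW q (NP + 1 + x) (48 + 2 * a)) := by
  obtain ⟨e1, e2, e3, e4, e5, e6, h1, h2⟩ := lt2 ha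
  refine hl_wd hq6 hx (by omega) ((wd_nW (by omega)).2 ?_)
  rw [e1, e2, e3]; exact h

theorem hl_n1 {x a : ℕ} (hx : x < NW) (ha : a < 24) (hq6 : q < 6) (h : M.W x (a / 2) (a % 2) 1 ≠ q) :
    hl M (pos NP NW q (NP + 1 + x) (48 + (2 * a + 1))) := by
  obtain ⟨e1, e2, e3, e4, e5, e6, h1, h2⟩ := lt2 ha
  refine hl_wd hq6 hx (by omega) ((wd_nW (by omega)).2 ?_)
  rw [e4, e5, e6]; exact h

theorem cl_wa {x a b : ℕ} (hx : x < NW) (ha : a < 24) (hb : b < 6) :
    CV M (Nat.lor (Nat.shiftLeft 3 (Nat.add (Nat.mul b (cs NP NW)) (Nat.add (wb NP x) (Nat.add 48 (Nat.mul 2 a)))))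
          (Nat.shiftLeft 1 (pos NP NW b x 123))) := by
  have hNP := M.hNW
  obtain ⟨-, -, -, -, -, -, h1, h2⟩ := lt2 ha
  rw [posn0]
  by_cases h3 : M.W x (a / 2) (a % 2) 0 = b
  · by_cases h4 : M.W x (a / 2) (a % 2) 1 = b
    · refine ⟨pos NP NW b x 123, lor_r (one_bit _), hl_pt hb (by omega) (by omega) (pt_123.2 ?_)⟩
      have h5 := M.wa (x := x) (t := a / 2) (sd := a % 2) hx h1 h2 (by rw [h3, h4])
      rw [h3] at h5; exact h5
    · refine ⟨_, lor_l ?_, hl_n1 hx ha hb h4⟩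
      have e : pos NP NW b (NP + 1 + x) (48 + (2 * a + 1)) = pos NP NW b (NP + 1 + x) (48 + 2 * a) + 1 := by
        rw [pos_eq, pos_eq]; omega
      rw [e]
      exact sl_bit (by decide)
  · refine ⟨_, lor_l ?_, hl_n0 hx ha hb h3⟩
    have := sl_bit (m := 3) (s := pos NP NW b (NP + 1 + x) (48 + 2 * a)) (i := 0) (by decide)
    rwa [add_zero] at this

theorem cl_wc {x a b c : ℕ} (hx : x < NW) (ha : a < 24) (hb : b < 6) (hc : c < 6) (hbc : b ≠ c) :
    CV M (Nat.lor (Nat.shiftLeft 1 (Nat.add (Nat.mul b (cs NP NW)) (Nat.add (wb NP x) (Nat.add 48 (Nat.mul 2 a)))))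
          (Nat.lor (Nat.shiftLeft 1 (Nat.add (Nat.mul c (cs NP NW)) (Nat.add (wb NP x) (Nat.add 49 (Nat.mul 2 a)))))
          (Nat.lor (Nat.shiftLeft 1 (pos NP NW b x 123)) (Nat.shiftLeft 1 (pos NP NW c x 122))))) := by
  have hNP := M.hNW
  obtain ⟨-, -, -, -, -, -, h1, h2⟩ := lt2 ha
  rw [posn0, posn1]
  by_cases h3 : M.W x (a / 2) (a % 2) 0 = b
  swap
  · exact ⟨_, lor_l (one_bit _), hl_n0 hx ha hb h3⟩
  by_cases h4 : M.W x (a / 2) (a % 2) 1 = c
  swap
  · exact ⟨_, lor_r (lor_l (one_bit _)), hl_n1 hx ha hc h4⟩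
  by_cases h5 : M.P x b
  swap
  · exact ⟨_, lor_r (lor_r (lor_l (one_bit _))), hl_pt hb (by omega) (by omega) (pt_123.2 h5)⟩
  refine ⟨_, lor_r (lor_r (lor_r (one_bit _))), hl_pt hc (by omega) (by omega) (pt_122.2 ?_)⟩
  have h6 := M.wc (x := x) (t := a / 2) (sd := a % 2) hx h1 h2 (by rw [h3, h4]; exact hbc) (by rw [h3]; exact h5)
  rw [h4] at h6; exact h6

theorem cl_noov {x a b c : ℕ} (hx : x < NW) (ha : a < 24) (hb : b < 6) (hc : c < 6) (hbc : b ≠ c) :
    CV M (Nat.lor (Nat.shiftLeft 1 (Nat.add (Nat.mul b (cs NP NW)) (Nat.add (wb NP x) (Nat.add 48 (Nat.mul 2 a)))))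
          (Nat.lor (Nat.shiftLeft 1 (Nat.add (Nat.mul c (cs NP NW)) (Nat.add (wb NP x) (Nat.add 49 (Nat.mul 2 a)))))
            (Nat.shiftLeft 1 (pos NP NW c x 122)))) := by
  have hNP := M.hNW
  obtain ⟨-, -, -, -, -, -, h1, h2⟩ := lt2 ha
  rw [posn0, posn1]
  by_cases h3 : M.W x (a / 2) (a % 2) 0 = b
  swap
  · exact ⟨_, lor_l (one_bit _), hl_n0 hx ha hb h3⟩
  by_cases h4 : M.W x (a / 2) (a % 2) 1 = c
  swap
  · exact ⟨_, lor_r (lor_l (one_bit _)), hl_n1 hx ha hc h4⟩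
  refine ⟨_, lor_r (lor_r (one_bit _)), hl_pt hc (by omega) (by omega) (pt_122.2 ?_)⟩
  have h6 := M.noov (x := x) (t := a / 2) (sd := a % 2) hx h1 h2 (by rw [h3, h4]; exact hbc)
  rw [h4] at h6; exact h6

theorem cl_wc2 (H : Tab NP NW nbr TB WN) {x a b c : ℕ} (hx : x < NW) (ha : a < 24) (hb : b < 6) (hc : c < 6) (hbc : b ≠ c)
    (hy : nb TB x (a / 2) < NP) (hw : nb TB (nb TB x (a / 2)) (a / 2) < NP) :
    CV M (Nat.lor (Nat.shiftLeft 1 (Nat.add (Nat.mul b (cs NP NW)) (Nat.add (wb NP x) (Nat.add 48 (Nat.mul 2 a)))))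
            (Nat.lor (Nat.shiftLeft 1 (Nat.add (Nat.mul c (cs NP NW)) (Nat.add (wb NP x) (Nat.add 49 (Nat.mul 2 a)))))
            (Nat.lor (Nat.shiftLeft 1 (pos NP NW b x 122)) (Nat.lor (Nat.shiftLeft 1 (pos NP NW c x 123))
              (Nat.shiftLeft 1 (pos NP NW b (nb TB (nb TB x (a / 2)) (a / 2)) 122)))))) := by
  have hNP := M.hNW
  obtain ⟨-, -, -, -, -, -, h1, h2⟩ := lt2 ha
  rw [posn0, posn1]
  have hs : a / 2 < 12 := by omega
  rcases H.nb (x := x) (by omega) hs with h5 | ⟨h5, h6, -⟩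
  · omega
  rcases H.nb h5 hs with h8 | ⟨h8, h9, -⟩
  · omega
  by_cases h3 : M.W x (a / 2) (a % 2) 0 = b
  swap
  · exact ⟨_, lor_l (one_bit _), hl_n0 hx ha hb h3⟩
  by_cases h4 : M.W x (a / 2) (a % 2) 1 = c
  swap
  · exact ⟨_, lor_r (lor_l (one_bit _)), hl_n1 hx ha hc h4⟩
  by_cases h10 : M.P x b
  · exact ⟨_, lor_r (lor_r (lor_l (one_bit _))), hl_pt hb (by omega) (by omega) (pt_122.2 h10)⟩
  by_cases h11 : M.P x c
  swap
  · exact ⟨_, lor_r (lor_r (lor_r (lor_l (one_bit _)))), hl_pt hc (by omega) (by omega) (pt_123.2 h11)⟩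
  refine ⟨_, lor_r (lor_r (lor_r (lor_r (one_bit _)))), hl_pt hb hw (by omega) (pt_122.2 ?_)⟩
  have h12 := M.wc2 (x := x) (t := a / 2) (sd := a % 2) hx h1 h2 (by rw [h3, h4]; exact hbc) (by rw [h6]; exact h5)
    (by rw [h6, h9]; exact h8) (by rw [h4]; exact h11) (by rw [h3]; exact h10)
  rw [h6, h9, h3] at h12; exact h12

theorem cl_glue (H : Tab NP NW nbr TB WN) {x a b : ℕ} (hx : x < NW) (ha : a < 48) (hb : b < 6)
    (hy : nb TB x (a / 4) < NP) :
    CV M (Nat.lor (Nat.shiftLeft 1 (Nat.add (Nat.mul b (cs NP NW)) (Nat.add (wb NP x) (Nat.add 48 a))))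
            (Nat.shiftLeft 1 (pos NP NW b (nb TB x (a / 4)) (ent GC 6 63 a)))) := by
  have hNP := M.hNW
  obtain ⟨a1, a2, a3, a4⟩ := lit_lt ha
  rcases H.nb (x := x) (by omega) a4 with h5 | ⟨h5, h6, -⟩
  · omega
  obtain ⟨h2, h3, h4⟩ := gc_spec ha
  have e : Nat.add (Nat.mul b (cs NP NW)) (Nat.add (wb NP x) (Nat.add 48 a)) = pos NP NW b (NP + 1 + x) (48 + a) := by
    rw [pos_w]; rfl
  rw [e]
  by_cases h : M.W x (a / 4) (a / 2 % 2) (a % 2) = b
  swap
  · exact ⟨_, lor_l (one_bit _), hl_wd hb hx (by omega) ((wd_nW ha).2 h)⟩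
  refine ⟨_, lor_r (one_bit _), hl_pt hb hy (by omega) ((pt_V h2).2 ?_)⟩
  have h8 := M.glue (x := x) (t := a / 4) (sd := a / 2 % 2) (io := a % 2) hx a1 a2 a3 (by rw [h6]; exact h5)
  rw [h, h6] at h8
  rw [h3, h4]; exact h8

/-- the definitions of the bits -/
theorem cl_bit {x b n : ℕ} (hx : x < NW) (hb : b < 6) (hn : n < 108)
    (h : bt M b x n ∨ ∃ c < 48, bvB n c = true ∧ M.V (c / 12) x (c % 12) b) :
    CV M (Nat.lor (Nat.shiftLeft 1 (Nat.add (Nat.mul b (cs NP NW)) (Nat.add (bb NP NW x) n)))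
            (Nat.shiftLeft (Nat.shiftRight (ent BT 128 M128 n) 72) (pos NP NW b x 0))) := by
  have hNP := M.hNW
  rcases h with h | ⟨c, hc, h1, h2⟩
  · refine ⟨pos NP NW b (NP + 1 + NW + x) n, lor_l ?_, hl_bt hb hx (by omega) h⟩
    rw [pos_b]; exact one_bit _
  · refine ⟨pos NP NW b x c, lor_r ?_, hl_pt hb (by omega) (by omega) ((pt_V hc).2 h2)⟩
    rw [pos_pt b x c, r_sr]
    exact sl_bit (i := c) (imB_iff.1 (allB_iff.1 (allB_iff.1 bw_tab n hn) c hc) h1)

theorem nat_lt_ble {a b : ℕ} (h : a < b) : Nat.ble (a + 1) b = true := by rw [Nat.ble_eq]; exact h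

theorem cl_s60 {x m b : ℕ} (hm : m < 6) : bt M b x (6 + m) ∨ ∃ c < 48, bvB (6 + m) c = true ∧ M.V (c / 12) x (c % 12) b := by
  by_cases h : M.S60 x m b
  swap
  · left; rw [bt6 (by omega) (by omega)]
    have e : 6 + m - 6 = m := by omega
    rw [e]; exact h
  right
  have key : ∀ c, s60B c m = true → bvB (6 + m) c = true := fun c hc => by
    unfold bvB
    have e : 6 + m - 6 = m := by omega
    rw [e, hc, nat_lt_ble (by omega : 6 + m < 12)]
    have : Nat.ble 6 (6 + m) = true := by rw [Nat.ble_eq]; omega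
    rw [this]; rfl
  rcases h with h | h | ⟨k, hk, h⟩
  · refine ⟨2 * m, by omega, key _ ?_, ?_⟩
    · unfold s60B
      have e1 : 2 * m / 12 = 0 := by omega
      have e2 : 2 * m % 12 = 2 * m := by omega
      have e3 : Nat.beq (2 * m) (2 * m) = true := by rw [Nat.beq_eq]
      rw [e1, e2, e3]; rfl
    · have e1 : 2 * m / 12 = 0 := by omega
      have e2 : 2 * m % 12 = 2 * m := by omega
      rw [e1, e2]; exact h
  · refine ⟨2 * m + 1, by omega, key _ ?_, ?_⟩
    · unfold s60B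
      have e1 : (2 * m + 1) / 12 = 0 := by omega
      have e2 : (2 * m + 1) % 12 = 2 * m + 1 := by omega
      have e3 : Nat.beq (2 * m + 1) (2 * m + 1) = true := by rw [Nat.beq_eq]
      rw [e1, e2, e3]; simp
    · have e1 : (2 * m + 1) / 12 = 0 := by omega
      have e2 : (2 * m + 1) % 12 = 2 * m + 1 := by omega
      rw [e1, e2]; exact h
  · refine ⟨12 * (k + 1) + (2 * m + 1), by omega, key _ ?_, ?_⟩
    · unfold s60B
      have e1 : (12 * (k + 1) + (2 * m + 1)) / 12 = k + 1 := by omega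
      have e2 : (12 * (k + 1) + (2 * m + 1)) % 12 = 2 * m + 1 := by omega
      have e3 : Nat.beq (2 * m + 1) (2 * m + 1) = true := by rw [Nat.beq_eq]
      rw [e1, e2, e3]; rfl
    · have e1 : (12 * (k + 1) + (2 * m + 1)) / 12 = k + 1 := by omega
      have e2 : (12 * (k + 1) + (2 * m + 1)) % 12 = 2 * m + 1 := by omega
      rw [e1, e2]; exact h

theorem cl_ap {x m b : ℕ} (hm : m < 6) : bt M b x (18 + m) ∨ ∃ c < 48, bvB (18 + m) c = true ∧ M.V (c / 12) x (c % 12) b := by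
  by_cases h : M.Ap x m b
  swap
  · left; rw [bt18 (by omega) (by omega)]
    have e : 18 + m - 18 = m := by omega
    rw [e]; exact h
  right
  have key : ∀ c, apB c m = true → bvB (18 + m) c = true := fun c hc => by
    unfold bvB
    have e : 18 + m - 18 = m := by omega
    rw [e, hc, nat_lt_ble (by omega : 18 + m < 24)]
    have : Nat.ble 18 (18 + m) = true := by rw [Nat.ble_eq]; omega
    rw [this]; simp
  rcases h with h | ⟨k, hk, h⟩
  · refine ⟨2 * m, by omega, key _ ?_, ?_⟩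
    · unfold apB
      have e1 : 2 * m / 12 = 0 := by omega
      have e2 : 2 * m % 12 = 2 * m := by omega
      have e3 : Nat.beq (2 * m) (2 * m) = true := by rw [Nat.beq_eq]
      rw [e1, e2, e3]; rfl
    · have e1 : 2 * m / 12 = 0 := by omega
      have e2 : 2 * m % 12 = 2 * m := by omega
      rw [e1, e2]; exact h
  · refine ⟨12 * (k + 1) + (2 * m + 1), by omega, key _ ?_, ?_⟩
    · unfold apB
      have e1 : (12 * (k + 1) + (2 * m + 1)) / 12 = k + 1 := by omega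
      have e2 : (12 * (k + 1) + (2 * m + 1)) % 12 = 2 * m + 1 := by omega
      have e3 : Nat.beq (2 * m + 1) (2 * m + 1) = true := by rw [Nat.beq_eq]
      rw [e1, e2, e3]; rfl
    · have e1 : (12 * (k + 1) + (2 * m + 1)) / 12 = k + 1 := by omega
      have e2 : (12 * (k + 1) + (2 * m + 1)) % 12 = 2 * m + 1 := by omega
      rw [e1, e2]; exact h

theorem cl_bm {x m b : ℕ} (hm : m < 6) : bt M b x (30 + m) ∨ ∃ c < 48, bvB (30 + m) c = true ∧ M.V (c / 12) x (c % 12) b := by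
  by_cases h : M.Bm x m b
  swap
  · left; rw [bt30 (by omega) (by omega)]
    have e : 30 + m - 30 = m := by omega
    rw [e]; exact h
  right
  have key : ∀ c, bmB c m = true → bvB (30 + m) c = true := fun c hc => by
    unfold bvB
    have e : 30 + m - 30 = m := by omega
    rw [e, hc, nat_lt_ble (by omega : 30 + m < 36)]
    have : Nat.ble 30 (30 + m) = true := by rw [Nat.ble_eq]; omega
    rw [this]; simp
  rcases h with h | ⟨k, hk, h⟩
  · refine ⟨2 * m + 1, by omega, key _ ?_, ?_⟩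
    · unfold bmB
      have e1 : (2 * m + 1) / 12 = 0 := by omega
      have e2 : (2 * m + 1) % 12 = 2 * m + 1 := by omega
      have e3 : Nat.beq (2 * m + 1) (2 * m + 1) = true := by rw [Nat.beq_eq]
      rw [e1, e2, e3]; rfl
    · have e1 : (2 * m + 1) / 12 = 0 := by omega
      have e2 : (2 * m + 1) % 12 = 2 * m + 1 := by omega
      rw [e1, e2]; exact h
  · refine ⟨12 * (k + 1) + (2 * m + 1), by omega, key _ ?_, ?_⟩
    · unfold bmB
      have e1 : (12 * (k + 1) + (2 * m + 1)) / 12 = k + 1 := by omega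
      have e2 : (12 * (k + 1) + (2 * m + 1)) % 12 = 2 * m + 1 := by omega
      have e3 : Nat.beq (2 * m + 1) (2 * m + 1) = true := by rw [Nat.beq_eq]
      rw [e1, e2, e3]; rfl
    · have e1 : (12 * (k + 1) + (2 * m + 1)) / 12 = k + 1 := by omega
      have e2 : (12 * (k + 1) + (2 * m + 1)) % 12 = 2 * m + 1 := by omega
      rw [e1, e2]; exact h

theorem cl_ar {x a b : ℕ} (hx : x < NW) (ha : a < 6) (hb : b < 6) :
    CV M (Nat.lor (Nat.shiftLeft 1 (Nat.add (Nat.mul b (cs NP NW)) (Nat.add (bb NP NW x) (Nat.add 42 a))))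
              (Nat.shiftLeft (Nat.lor (Nat.shiftLeft 1 12) (Nat.lor (Nat.shiftLeft 1 24) (Nat.shiftLeft 1 36)))
                (pos NP NW b x (Nat.mul 2 a)))) := by
  have hNP := M.hNW
  by_cases h : M.AR x a b
  swap
  · refine ⟨pos NP NW b (NP + 1 + NW + x) (42 + a), lor_l ?_, hl_bt hb hx (by omega) ?_⟩
    · rw [pos_b]; exact one_bit _
    · rw [bt42 (by omega) (by omega)]
      have e : 42 + a - 42 = a := by omega
      rw [e]; exact h
  obtain ⟨k, hk, h1⟩ := M.arz rfl hx ha hb h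
  refine ⟨pos NP NW b x (12 * (k + 1) + 2 * a), lor_r ?_, hl_pt hb (by omega) (by omega) ((pt_V (by omega)).2 ?_)⟩
  · have e : pos NP NW b x (12 * (k + 1) + 2 * a) = pos NP NW b x (Nat.mul 2 a) + 12 * (k + 1) := by
      rw [pos_eq, pos_eq, r_mul]; omega
    rw [e]
    refine sl_bit (i := 12 * (k + 1)) ?_
    interval_cases k
    · exact lor_l (one_bit 12)
    · exact lor_r (lor_l (one_bit 24))
    · exact lor_r (lor_r (one_bit 36))
  · have e1 : (12 * (k + 1) + 2 * a) / 12 = k + 1 := by omega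
    have e2 : (12 * (k + 1) + 2 * a) % 12 = 2 * a := by omega
    rw [e1, e2]; exact h1

theorem cl_al {x a b : ℕ} (hx : x < NW) (ha : a < 6) (hb : b < 6) :
    CV M (Nat.lor (Nat.shiftLeft 1 (Nat.add (Nat.mul b (cs NP NW)) (Nat.add (bb NP NW x) (Nat.add 54 a))))
              (Nat.shiftLeft (Nat.lor (Nat.shiftLeft 1 12) (Nat.lor (Nat.shiftLeft 1 24) (Nat.shiftLeft 1 36)))
                (pos NP NW b x (Nat.mod (Nat.add (Nat.mul 2 a) 2) 12)))) := by
  have hNP := M.hNW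
  by_cases h : M.AL x a b
  swap
  · refine ⟨pos NP NW b (NP + 1 + NW + x) (54 + a), lor_l ?_, hl_bt hb hx (by omega) ?_⟩
    · rw [pos_b]; exact one_bit _
    · rw [bt54 (by omega) (by omega)]
      have e : 54 + a - 54 = a := by omega
      rw [e]; exact h
  obtain ⟨k, hk, h1⟩ := M.alz rfl hx ha hb h
  rw [ad_eq2] at h1
  have e0 : Nat.mod (Nat.add (Nat.mul 2 a) 2) 12 = (2 * a + 2) % 12 := rfl
  rw [e0]
  refine ⟨pos NP NW b x (12 * (k + 1) + (2 * a + 2) % 12), lor_r ?_, hl_pt hb (by omega) (by omega) ((pt_V (by omega)).2 ?_)⟩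
  · have e : pos NP NW b x (12 * (k + 1) + (2 * a + 2) % 12) = pos NP NW b x ((2 * a + 2) % 12) + 12 * (k + 1) := by
      rw [pos_eq, pos_eq]; omega
    rw [e]
    refine sl_bit (i := 12 * (k + 1)) ?_
    interval_cases k
    · exact lor_l (one_bit 12)
    · exact lor_r (lor_l (one_bit 24))
    · exact lor_r (lor_r (one_bit 36))
  · have e1 : (12 * (k + 1) + (2 * a + 2) % 12) / 12 = k + 1 := by omega
    have e2 : (12 * (k + 1) + (2 * a + 2) % 12) % 12 = (2 * a + 2) % 12 := by omega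
    rw [e1, e2]; exact h1

/-- **All clauses hold.** -/
theorem cm_CV (H : Tab NP NW nbr TB WN) {f4 : Bool} (h4 : f4 = true → ∀ x < NP, ∀ a < 6, ∃ r < 6, r ≠ a ∧ ¬ M.T x r)
    {e : List (List ℕ)} (he : ∀ i, CV M (nth NP NW e i)) (k x a b c : ℕ) : CV M (cm NP NW TB f4 e k x a b c) := by
  have hr1 : Nat.shiftRight a 1 = a / 2 := Nat.shiftRight_one a
  have hr2 : Nat.shiftRight a 2 = a / 4 := Nat.shiftRight_eq_div_pow a 2
  unfold cm
  rw [hr1, hr2]
  refine CV.br (fun _ => he _) (fun _ => ?_)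
  refine CV.br (fun _ => CV.br (fun hx => CV.br (fun ha => cl_cell (lt_iff.1 hx) (lt_iff.1 ha)) (fun _ => CV.tru)) (fun _ => CV.tru))
    (fun _ => ?_)
  refine CV.br (fun _ => CV.br (fun hx => CV.br (fun ha => cl_let (lt_iff.1 hx) (lt_iff.1 ha)) (fun _ => CV.tru)) (fun _ => CV.tru))
    (fun _ => ?_)
  refine CV.br (fun _ => CV.br (fun hx => ?_) (fun _ => CV.tru)) (fun hk8 => CV.br (fun hx => ?_) (fun _ => CV.tru))
  · rw [lt_iff] at hx
    refine CV.br (fun _ => ?_) (fun _ => ?_)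
    · refine CV.br (fun _ => CV.br (fun ha => ?_) (fun _ => CV.tru)) (fun _ => CV.br (fun _ => CV.br (fun ha => ?_) (fun _ => CV.tru))
        (fun _ => CV.br (fun ha => ?_) (fun _ => CV.tru)))
      · rw [Nat.ble_eq] at ha; exact cl_T hx (by omega)
      · rw [Nat.ble_eq] at ha; exact cl_P hx (by omega)
      · rw [Nat.ble_eq] at ha; exact cl_xx2 hx (by omega)
    · refine CV.br (fun _ => cl_five hx) (fun _ => CV.br (fun _ => CV.br (fun ha => CV.br (fun h => ?_) (fun _ => CV.tru))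
        (fun _ => CV.tru)) (fun _ => CV.br (fun _ => CV.br (fun ha => ?_) (fun _ => CV.tru))
        (fun _ => CV.br (fun ha => CV.br (fun hb => CV.br (fun hy => ?_) (fun _ => CV.tru)) (fun _ => CV.tru)) (fun _ => CV.tru))))
      · rw [Nat.ble_eq] at ha; exact cl_four hx (by omega) (h4 h x hx a (by omega))
      · rw [Nat.ble_eq] at ha; exact cl_hull hx (by omega)
      · rw [lt_iff] at ha hy; rw [Nat.ble_eq] at hb; exact cl_xxp H hx ha (by omega) hy
  · rw [lt_iff] at hx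
    refine CV.br (fun _ => ?_) (fun hk12 => ?_)
    · refine CV.br (fun _ => CV.br (fun ha => CV.br (fun hb => ?_) (fun _ => CV.tru)) (fun _ => CV.tru)) (fun _ =>
        CV.br (fun ha => CV.br (fun hb => CV.br (fun hc => CV.br (fun _ => CV.tru) (fun hbc => ?_)) (fun _ => CV.tru))
          (fun _ => CV.tru)) (fun _ => CV.tru))
      · rw [lt_iff] at ha; rw [Nat.ble_eq] at hb; exact cl_wa hx ha (by omega)
      · rw [lt_iff] at ha; rw [Nat.ble_eq] at hb hc
        have hbc' : b ≠ c := fun h => by rw [h] at hbc; simp at hbc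
        refine CV.br (fun _ => cl_wc hx ha (by omega) (by omega) hbc') (fun _ =>
          CV.br (fun hy => CV.br (fun hw => ?_) (fun _ => CV.tru)) (fun _ => CV.tru))
        rw [lt_iff] at hy hw
        exact cl_wc2 H hx ha (by omega) (by omega) hbc' hy hw
    · refine CV.br (fun _ => CV.br (fun ha => CV.br (fun hb => CV.br (fun hc => CV.br (fun _ => CV.tru) (fun hbc => ?_))
        (fun _ => CV.tru)) (fun _ => CV.tru)) (fun _ => CV.tru)) (fun _ => CV.br (fun hb => ?_) (fun _ => CV.tru))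
      · rw [lt_iff] at ha; rw [Nat.ble_eq] at hb hc
        have hbc' : b ≠ c := fun h => by rw [h] at hbc; simp at hbc
        exact cl_noov hx ha (by omega) (by omega) hbc'
      rw [Nat.ble_eq] at hb
      refine CV.br (fun _ => CV.br (fun ha => CV.br (fun hy => ?_) (fun _ => CV.tru)) (fun _ => CV.tru)) (fun h17 =>
        CV.br (fun ha => CV.br (fun h15 => ?_) (fun _ => CV.br (fun _ => cl_ar hx (lt_iff.1 ha) (by omega))
          (fun _ => CV.br (fun _ => cl_al hx (lt_iff.1 ha) (by omega)) (fun _ => CV.tru))))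
          (fun _ => CV.tru))
      · rw [lt_iff] at ha hy; exact cl_glue H hx ha (by omega) hy
      · rw [lt_iff] at ha h15
        rw [ltf_iff] at hk12
        have hkk : k = 12 ∨ k = 13 ∨ k = 14 := by omega
        rcases hkk with rfl | rfl | rfl
        · have e : Nat.add a (Nat.sub (Nat.mul 12 12) 138) = 6 + a := by simp only [r_add, r_sub, r_mul]; omega
          rw [e]; exact cl_bit hx (by omega) (by omega) (cl_s60 ha)
        · have e : Nat.add a (Nat.sub (Nat.mul 12 13) 138) = 18 + a := by simp only [r_add, r_sub, r_mul]; omega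
          rw [e]; exact cl_bit hx (by omega) (by omega) (cl_ap ha)
        · have e : Nat.add a (Nat.sub (Nat.mul 12 14) 138) = 30 + a := by simp only [r_add, r_sub, r_mul]; omega
          rw [e]; exact cl_bit hx (by omega) (by omega) (cl_bm ha)

end Vale.Agent.P032.H286.E
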