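import Vale.Agent.P032.H286.TabOk

/-!
# P032: the engine with one mask of dead literals (rows)

The row of a literal is a set of literals which are false if the literal is true.
-/

namespace Vale.Agent.P032.H286.E

open Vale.Agent.P032.H820.K

/-- the tables of neighbours are correct -/
structure Tab (NP NW : ℕ) (nbr : ℕ → ℕ → ℕ) (TB WN : ℕ) : Prop where
  nb1 : ∀ x < NP, ∀ s < 12, ∃ y, (TB >>> (14 * (12 * x + s))) &&& 16383 = 128 * y ∧
    (y = NP ∨ (y < NP ∧ nbr x s = y ∧ nbr y ((s + 6) % 12) = x))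
  wn : ∀ x < NW, ∀ n, (ent WN (128 * NW) (2 ^ (128 * NW) - 1) x).testBit n = true →
    ∃ y, y < NW ∧ (n = 128 * y ∨ n = 128 * y + 1) ∧ ∃ s < 12, nbr x s = y

variable {NP NW : ℕ} {nbr : ℕ → ℕ → ℕ} {TB WN : ℕ} {M : Md 2 NP NW nbr} {q : ℕ}

theorem Tab.nb (H : Tab NP NW nbr TB WN) {x s : ℕ} (hx : x < NP) (hs : s < 12) :
    E.nb TB x s = NP ∨ (E.nb TB x s < NP ∧ nbr x s = E.nb TB x s ∧ nbr (E.nb TB x s) ((s + 6) % 12) = x) := by
  obtain ⟨y, h1, h2⟩ := H.nb1 x hx s hs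
  have e : E.nb TB x s = y := by
    unfold E.nb
    simp only [r_land, r_sr, r_mul, r_add]
    rw [h1, Nat.shiftRight_eq_div_pow]; omega
  rw [e]; exact h2

theorem ad_eq (s : ℕ) : ad 2 s (3 * 2) = (s + 6) % 12 := rfl
theorem ad_eq2 (s : ℕ) : ad 2 s 2 = (s + 2) % 12 := rfl

theorem pt_V {x l : ℕ} (h : l < 48) : pt M q x l ↔ M.V (l / 12) x (l % 12) q := by unfold pt; rw [if_pos h]
theorem pt_PV {x l : ℕ} (h1 : 48 ≤ l) (h : l < 96) : pt M q x l ↔ M.PV ((l - 48) / 12) x ((l - 48) % 12) q := by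
  unfold pt; rw [if_neg (by omega), if_pos h]
theorem pt_E {x l : ℕ} (h1 : 96 ≤ l) (h : l < 108) : pt M q x l ↔
    (∀ k < 4, ∀ j < 12, ecell 2 k j (l - 96) = true → ¬ M.V k x j q) := by
  unfold pt; rw [if_neg (by omega), if_neg (by omega), if_pos h]
theorem pt_F {x l : ℕ} (h1 : 108 ≤ l) (h : l < 120) : pt M q x l ↔
    (∀ k < 4, ∀ j < 12, fcell 2 k j (l - 108) = true → ¬ M.V k x j q) := by
  unfold pt; rw [if_neg (by omega), if_neg (by omega), if_neg (by omega), if_pos h]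
theorem pt_120 {x : ℕ} : pt M q x 120 ↔ M.T x q := by unfold pt; norm_num
theorem pt_121 {x : ℕ} : pt M q x 121 ↔ ¬ M.T x q := by unfold pt; norm_num
theorem pt_122 {x : ℕ} : pt M q x 122 ↔ M.P x q := by unfold pt; norm_num
theorem pt_123 {x : ℕ} : pt M q x 123 ↔ ¬ M.P x q := by unfold pt; norm_num
theorem pt_124 {x : ℕ} : pt M q x 124 ↔ (q = 0 ∧ M.X x) := by unfold pt; norm_num
theorem pt_125 {x : ℕ} : pt M q x 125 ↔ (q = 0 ∧ ¬ M.X x) := by unfold pt; norm_num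

theorem cell_lt {c : ℕ} (h : c < 48) : c / 12 < 4 ∧ c % 12 < 6 * 2 ∧ c % 12 < 12 := by omega

/-- no literal of the mask and of the mask moved by 48 places holds -/
def KK (M : Md 2 NP NW nbr) (q w : ℕ) : Prop := KW M q w ∧ KW M q (Nat.shiftLeft w 48)

theorem KK.lor {a b : ℕ} (h1 : KK M q a) (h2 : KK M q b) : KK M q (Nat.lor a b) := by
  refine ⟨KW.lor h1.1 h2.1, fun n hn => ?_⟩
  rw [r_sl, r_lor, Nat.testBit_shiftLeft, Bool.and_eq_true, Nat.testBit_or, Bool.or_eq_true] at hn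
  rcases hn with ⟨h3, h4 | h4⟩
  · exact h1.2 n (by rw [r_sl, Nat.testBit_shiftLeft, h3, h4]; rfl)
  · exact h2.2 n (by rw [r_sl, Nat.testBit_shiftLeft, h3, h4]; rfl)

/-- a piece at the neighbour: cells without an open germ -/
theorem piece {y m : ℕ} (hy : y < NP) (hq6 : q < 6) (hm : ∀ l, m.testBit l = true → l < 48)
    (h : ∀ l, m.testBit l = true → ¬ M.PV (l / 12) y (l % 12) q) : KK M q (Nat.shiftLeft m (128 * y)) := by
  refine ⟨KW.shift (by omega) fun l hl => ?_, ?_⟩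
  · have h1 := hm l hl
    have h2 := h l hl
    refine ⟨by omega, ?_⟩
    rw [hq_pt hy, pt_V h1]
    obtain ⟨a, b, c⟩ := cell_lt h1
    exact fun h4 => h2 (M.vpv a hy b hq6 h4)
  · have e : Nat.shiftLeft (Nat.shiftLeft m (128 * y)) 48 = Nat.shiftLeft (m <<< 48) (128 * y) := by
      simp only [r_sl]
      rw [← Nat.shiftLeft_add, ← Nat.shiftLeft_add, Nat.add_comm]
    rw [e]
    refine KW.shift (by omega) fun l hl => ?_
    rw [Nat.testBit_shiftLeft, Bool.and_eq_true, decide_eq_true_eq] at hl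
    obtain ⟨h0, hl⟩ := hl
    have h1 := hm _ hl
    have h2 := h _ hl
    refine ⟨by omega, ?_⟩
    rw [hq_pt hy, pt_PV (by omega) (by omega)]
    exact h2

/-- a mask of cells without an open germ, twice -/
theorem piece96 {y m : ℕ} (hy : y < NP) (hq6 : q < 6) (hm : ∀ l, m.testBit l = true → l < 96)
    (h : ∀ l, m.testBit l = true → ¬ M.PV (l % 48 / 12) y (l % 48 % 12) q) : KW M q (Nat.shiftLeft m (128 * y)) := by
  refine KW.shift (by omega) fun l hl => ?_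
  have h1 := hm l hl
  have h2 := h l hl
  refine ⟨by omega, ?_⟩
  rw [hq_pt hy]
  by_cases h3 : l < 48
  · rw [pt_V h3]
    rw [Nat.mod_eq_of_lt h3] at h2
    obtain ⟨a, b, c⟩ := cell_lt h3
    exact fun h4 => h2 (M.vpv a hy b hq6 h4)
  · rw [pt_PV (by omega) h1]
    have e : l % 48 = l - 48 := by omega
    rw [e] at h2; exact h2

/-- a piece at the neighbour: cells without a germ -/
theorem piece' {y m : ℕ} (hy : y < NP) (hm : ∀ l, m.testBit l = true → l < 48)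
    (h : ∀ l, m.testBit l = true → ¬ M.V (l / 12) y (l % 12) q) : KW M q (Nat.shiftLeft m (128 * y)) := by
  refine KW.shift (by omega) fun l hl => ?_
  have h1 := hm l hl
  refine ⟨by omega, ?_⟩
  rw [hq_pt hy, pt_V h1]; exact h l hl

theorem piece_dummy {m : ℕ} (hm : ∀ l, m.testBit l = true → l < 48) : KK M q (Nat.shiftLeft m (128 * NP)) := by
  refine ⟨KW.shift (by omega) fun l hl => ⟨by have := hm l hl; omega, hq_dummy (by have := hm l hl; omega)⟩, ?_⟩
  have e : Nat.shiftLeft (Nat.shiftLeft m (128 * NP)) 48 = Nat.shiftLeft (m <<< 48) (128 * NP) := by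
    simp only [r_sl]
    rw [← Nat.shiftLeft_add, ← Nat.shiftLeft_add, Nat.add_comm]
  rw [e]
  refine KW.shift (by omega) fun l hl => ?_
  rw [Nat.testBit_shiftLeft, Bool.and_eq_true, decide_eq_true_eq] at hl
  have := hm _ hl.2
  exact ⟨by omega, hq_dummy (by omega)⟩

theorem and96 {a l : ℕ} (h : (a &&& M96).testBit l = true) : l < 96 ∧ a.testBit l = true := by
  rw [M96_eq] at h
  refine ⟨and_lt h, ?_⟩
  rw [Nat.testBit_and, Bool.and_eq_true] at h; exact h.1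

theorem and48 {a l : ℕ} (h : (a &&& M48).testBit l = true) : l < 48 ∧ a.testBit l = true := by
  rw [M48_eq] at h
  refine ⟨and_lt h, ?_⟩
  rw [Nat.testBit_and, Bool.and_eq_true] at h; exact h.1

theorem and128 {a l : ℕ} (h : (a &&& M128).testBit l = true) : l < 128 ∧ a.testBit l = true := by
  rw [M128_eq] at h
  refine ⟨and_lt h, ?_⟩
  rw [Nat.testBit_and, Bool.and_eq_true] at h; exact h.1

theorem and72 {a l : ℕ} (h : (a &&& M72).testBit l = true) : l < 72 ∧ a.testBit l = true := by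
  rw [M72_eq] at h
  refine ⟨and_lt h, ?_⟩
  rw [Nat.testBit_and, Bool.and_eq_true] at h; exact h.1

/-- the cells of a piece -/
theorem t12_spec {c s' l : ℕ} (hc : c < 48) (hs : s' < 12) (hl : l < 48) (h : (T12 >>> (576 * c + 48 * s')).testBit l = true) :
    (hcell 2 (c / 12) (c % 12) s' = true ∧ (hcell 2 (l / 12) (l % 12) s' = true ∨
      (l / 12 = 2 ∧ (l % 12 = s' ∨ l % 12 = (s' + 6) % 12)))) ∨
    ((hcell 2 (c / 12) (c % 12) ((s' + 6) % 12) = true ∨ (c / 12 = 2 ∧ (c % 12 = s' ∨ c % 12 = (s' + 6) % 12))) ∧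
      hcell 2 (l / 12) (l % 12) ((s' + 6) % 12) = true) := by
  have h1 : t12B c s' l = true := imB_iff.1 (allB_iff.1 (allB_iff.1 (allB_iff.1 t12_tab c hc) s' hs) l hl) h
  unfold t12B at h1
  cases h2 : hcell 2 (c / 12) (c % 12) s'
  · rw [h2, cond_false] at h1
    right
    simpa only [Bool.or_eq_true, Bool.and_eq_true, Nat.beq_eq] using h1
  · rw [h2, cond_true] at h1
    left
    exact ⟨rfl, by simpa only [Bool.or_eq_true, Bool.and_eq_true, Nat.beq_eq] using h1⟩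

theorem p1_eq {x y c s' : ℕ} (h : (TB >>> (14 * (12 * x + s'))) &&& 16383 = 128 * y) :
    p1 (Nat.shiftRight TB (Nat.mul 168 x) >>> (14 * s')) (Nat.shiftRight T12 (Nat.mul 576 c) >>> (48 * s')) =
      Nat.shiftLeft ((T12 >>> (576 * c + 48 * s')) &&& M48) (128 * y) := by
  unfold p1
  simp only [r_land, r_sr, r_mul]
  rw [← Nat.shiftRight_add, ← Nat.shiftRight_add]
  have e : 168 * x + 14 * s' = 14 * (12 * x + s') := by ring
  rw [e, h]

/-- one piece of the row of a germ -/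
theorem p1_V (H : Tab NP NW nbr TB WN) {x c s' : ℕ} (hx : x < NP) (hc : c < 48) (hs : s' < 12) (hq6 : q < 6)
    (hV : M.V (c / 12) x (c % 12) q) :
    KK M q (p1 (Nat.shiftRight TB (Nat.mul 168 x) >>> (14 * s')) (Nat.shiftRight T12 (Nat.mul 576 c) >>> (48 * s'))) := by
  obtain ⟨y, e3, hy⟩ := H.nb1 x hx s' hs
  rw [p1_eq e3]
  rcases hy with hy | ⟨hy, hy1, -⟩
  · rw [hy]; exact piece_dummy fun l hl => (and48 hl).1
  obtain ⟨hk, hj, hj'⟩ := cell_lt hc
  have hs2 : s' < 6 * 2 := by omega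
  have hs3 : (s' + 6) % 12 < 6 * 2 := by omega
  refine piece hy hq6 (fun l hl => (and48 hl).1) fun l hl => ?_
  obtain ⟨hl1, hl2⟩ := and48 hl
  obtain ⟨lk, lj, lj'⟩ := cell_lt hl1
  intro hp
  rcases t12_spec hc hs hl1 hl2 with ⟨hh, h8⟩ | ⟨h, h8⟩
  · have h9 := M.vh hk hx hj hs2 hq6 hh hV
    obtain ⟨a1, a2, a3⟩ := M.lk1 hx hs2 hq6 (by rw [hy1]; exact hy) h9
    rw [hy1, ad_eq] at a3
    rw [hy1] at a1 a2
    rcases h8 with h8 | ⟨h8, h8' | h8'⟩
    · exact a1 (M.pvh lk hy lj hs2 hq6 h8 hp)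
    · rw [h8, h8'] at hp; exact a2 hp
    · rw [h8, h8'] at hp; exact a3 hp
  · have h9 := M.pvh lk hy lj hs3 hq6 h8 hp
    obtain ⟨a1, a2, a3⟩ := M.lk2 hx hs2 hq6 (by rw [hy1]; exact hy) (by rw [hy1, ad_eq]; exact h9)
    rw [ad_eq] at a1 a3
    rcases h with h | ⟨h, h' | h'⟩
    · exact a1 (M.vh hk hx hj hs3 hq6 h hV)
    · rw [h, h'] at hV; exact a2 hV
    · rw [h, h'] at hV; exact a3 hV

/-- one piece of the row of an open germ -/
theorem p1_P (H : Tab NP NW nbr TB WN) {x c s' : ℕ} (hx : x < NP) (hc : c < 48) (hs : s' < 12) (hq6 : q < 6)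
    (hV : M.PV (c / 12) x (c % 12) q) :
    KW M q (p1 (Nat.shiftRight TB (Nat.mul 168 x) >>> (14 * s')) (Nat.shiftRight T12 (Nat.mul 576 c) >>> (48 * s'))) := by
  obtain ⟨y, e3, hy⟩ := H.nb1 x hx s' hs
  rw [p1_eq e3]
  rcases hy with hy | ⟨hy, hy1, hy2⟩
  · rw [hy]; exact (piece_dummy fun l hl => (and48 hl).1).1
  obtain ⟨hk, hj, hj'⟩ := cell_lt hc
  have hs2 : s' < 6 * 2 := by omega
  have hs3 : (s' + 6) % 12 < 6 * 2 := by omega
  have e5 : ((s' + 6) % 12 + 6) % 12 = s' := by omega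
  refine piece' hy (fun l hl => (and48 hl).1) fun l hl => ?_
  obtain ⟨hl1, hl2⟩ := and48 hl
  obtain ⟨lk, lj, lj'⟩ := cell_lt hl1
  intro hp
  rcases t12_spec hc hs hl1 hl2 with ⟨hh, h8⟩ | ⟨h, h8⟩
  · have h9 := M.pvh hk hx hj hs2 hq6 hh hV
    obtain ⟨a1, a2, a3⟩ := M.lk2 hy hs3 hq6 (by rw [hy2]; exact hx) (by rw [hy2, ad_eq, e5]; exact h9)
    rw [ad_eq, e5] at a1 a3
    rcases h8 with h8 | ⟨h8, h8' | h8'⟩
    · exact a1 (M.vh lk hy lj hs2 hq6 h8 hp)
    · rw [h8, h8'] at hp; exact a3 hp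
    · rw [h8, h8'] at hp; exact a2 hp
  · have h9 := M.vh lk hy lj hs3 hq6 h8 hp
    obtain ⟨a1, a2, a3⟩ := M.lk1 hy hs3 hq6 (by rw [hy2]; exact hx) h9
    rw [hy2] at a1 a2
    rw [hy2, ad_eq, e5] at a3
    rcases h with h | ⟨h, h' | h'⟩
    · exact a1 (M.pvh hk hx hj hs3 hq6 h hV)
    · rw [h, h'] at hV; exact a3 hV
    · rw [h, h'] at hV; exact a2 hV

/-- a property of the union of the pieces -/
theorem p12_ind {Q : ℕ → Prop} (hQ : ∀ {a b}, Q a → Q b → Q (Nat.lor a b)) {CH t : ℕ}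
    (h : ∀ s < 12, Q (p1 (CH >>> (14 * s)) (t >>> (48 * s)))) : Q (p12 CH t) := by
  unfold p12 p4 p2
  simp only [r_sr, ← Nat.shiftRight_add]
  exact hQ (hQ (hQ (h 0 (by norm_num)) (h 1 (by norm_num))) (hQ (h 2 (by norm_num)) (h 3 (by norm_num))))
    (hQ (hQ (hQ (h 4 (by norm_num)) (h 5 (by norm_num))) (hQ (h 6 (by norm_num)) (h 7 (by norm_num))))
      (hQ (hQ (h 8 (by norm_num)) (h 9 (by norm_num))) (hQ (h 10 (by norm_num)) (h 11 (by norm_num)))))

theorem wb_eq {x : ℕ} : wb NP x = 128 * (NP + 1 + x) := by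
  unfold wb; simp only [r_mul, r_succ, r_add]; ring
theorem bb_eq {x : ℕ} : bb NP NW x = 128 * (NP + 1 + NW + x) := by
  unfold bb; simp only [r_mul, r_succ, r_add]; ring

theorem wd_W {x l : ℕ} (h : l < 48) : wd M q x l ↔ M.W x (l / 4) (l / 2 % 2) (l % 2) = q := by unfold wd; rw [if_pos h]
theorem wd_nW {x l : ℕ} (h : l < 48) : wd M q x (48 + l) ↔ M.W x (l / 4) (l / 2 % 2) (l % 2) ≠ q := by
  unfold wd
  have e : 48 + l - 48 = l := by omega
  rw [if_neg (by omega), if_pos (by omega), e]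

/-- letters excluded by an open germ -/
theorem lw_KW {x c : ℕ} (hx : x < NW) (hc : c < 48) (hV : M.PV (c / 12) x (c % 12) q) :
    KW M q (Nat.shiftLeft (ent LW 48 M48 c) (wb NP x)) := by
  rw [wb_eq]
  refine KW.shift (by omega) fun l hl => ?_
  have h1 : l < 48 := (and48 hl).1
  refine ⟨by omega, ?_⟩
  rw [hq_wd hx, wd_W h1]
  obtain ⟨hk, hj, hj'⟩ := cell_lt hc
  have h2 := imB_iff.1 (allB_iff.1 (allB_iff.1 lw_tab c hc) l h1) hl
  intro h3
  have h4 := M.wb (x := x) (t := l / 4) (sd := l / 2 % 2) (io := l % 2) hx (by omega) (by omega) (by omega) hk hj h2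
  rw [h3] at h4
  exact h4 hV

/-- bits excluded by a germ -/
theorem ob_KW {x c : ℕ} (hx : x < NW) (hc : c < 48) (hV : M.V (c / 12) x (c % 12) q) :
    KW M q (Nat.shiftLeft (ent OB 128 M128 c) (bb NP NW x)) := by
  rw [bb_eq]
  refine KW.shift (by omega) fun l hl => ?_
  have h1 : l < 128 := (and128 hl).1
  refine ⟨by omega, ?_⟩
  rw [hq_bt hx]
  obtain ⟨hk, hj, hj'⟩ := cell_lt hc
  have h2 := imB_iff.1 (allB_iff.1 (allB_iff.1 ob_tab c hc) l h1) hl
  unfold obB s60B apB bmB at h2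
  simp only [Bool.or_eq_true, Bool.and_eq_true, Nat.ble_eq, Nat.beq_eq] at h2
  have hcase : ∀ P : Prop, (c / 12 = 0 → P) → (c / 12 ≠ 0 → P) → P := fun P a b => by
    by_cases h : c / 12 = 0
    · exact a h
    · exact b h
  have hk3 : c / 12 ≠ 0 → ∃ k < 3, k + 1 = c / 12 := fun h => ⟨c / 12 - 1, by omega, by omega⟩
  rcases h2 with ((⟨⟨h3, h4⟩, h5⟩ | ⟨⟨h3, h4⟩, h5⟩) | ⟨⟨h3, h4⟩, h5⟩) | ⟨⟨h3, h4⟩, h5⟩
  · unfold bt
    rw [if_neg (by omega), if_pos (by omega)]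
    refine not_not.2 ?_
    by_cases h0 : c / 12 = 0
    · have e0 : Nat.beq (c / 12) 0 = true := by rw [Nat.beq_eq]; exact h0
      rw [e0, cond_true] at h5
      simp only [Bool.or_eq_true, Nat.beq_eq] at h5
      rw [h0] at hV
      rcases h5 with h5 | h5
      · rw [h5] at hV; exact Or.inl hV
      · rw [h5] at hV; exact Or.inr (Or.inl hV)
    · have e0 : Nat.beq (c / 12) 0 = false := by rw [Bool.eq_false_iff, ne_eq, Nat.beq_eq]; exact h0
      rw [e0, cond_false, Nat.beq_eq] at h5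
      obtain ⟨k, hk1, hk2⟩ := hk3 h0
      rw [← hk2, h5] at hV
      exact Or.inr (Or.inr ⟨k, hk1, hV⟩)
  · unfold bt
    rw [if_neg (by omega), if_neg (by omega), if_neg (by omega), if_pos (by omega)]
    refine not_not.2 ?_
    by_cases h0 : c / 12 = 0
    · have e0 : Nat.beq (c / 12) 0 = true := by rw [Nat.beq_eq]; exact h0
      rw [e0, cond_true, Nat.beq_eq] at h5
      rw [h0, h5] at hV
      exact Or.inl hV
    · have e0 : Nat.beq (c / 12) 0 = false := by rw [Bool.eq_false_iff, ne_eq, Nat.beq_eq]; exact h0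
      rw [e0, cond_false, Nat.beq_eq] at h5
      obtain ⟨k, hk1, hk2⟩ := hk3 h0
      rw [← hk2, h5] at hV
      exact Or.inr ⟨k, hk1, hV⟩
  · unfold bt
    rw [if_neg (by omega), if_neg (by omega), if_neg (by omega), if_neg (by omega), if_neg (by omega), if_pos (by omega)]
    refine not_not.2 ?_
    by_cases h0 : c / 12 = 0
    · have e0 : Nat.beq (c / 12) 0 = true := by rw [Nat.beq_eq]; exact h0
      rw [e0, cond_true, Nat.beq_eq] at h5
      rw [h0, h5] at hV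
      exact Or.inl hV
    · have e0 : Nat.beq (c / 12) 0 = false := by rw [Bool.eq_false_iff, ne_eq, Nat.beq_eq]; exact h0
      rw [e0, cond_false, Nat.beq_eq] at h5
      obtain ⟨k, hk1, hk2⟩ := hk3 h0
      rw [← hk2, h5] at hV
      exact Or.inr ⟨k, hk1, hV⟩
  · unfold bt
    rw [if_neg (by omega), if_neg (by omega), if_neg (by omega), if_neg (by omega), if_neg (by omega), if_neg (by omega),
      if_neg (by omega), if_neg (by omega), if_neg (by omega), if_neg (by omega), if_pos (by omega)]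
    refine not_not.2 ?_
    rw [h5] at hV
    exact hV

/-- **The row of a germ.** -/
theorem vwin_KW (H : Tab NP NW nbr TB WN) {x c : ℕ} (hx : x < NP) (hc : c < 48) (hq6 : q < 6)
    (hV : M.V (c / 12) x (c % 12) q) : KW M q (vwin NP NW TB x c) := by
  obtain ⟨hk, hj, hj'⟩ := cell_lt hc
  have hT : M.T x q := M.vt hk hx hj hq6 hV
  have hP : M.P x q := M.tp hx hq6 hT
  unfold vwin
  refine KW.lor ?_ (KW.lor ?_ (KW.br (fun h => ?_) (fun _ => KW.zero)))
  · rw [r_mul]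
    refine KW.shift (by omega) fun l hl => ?_
    have h1 : l < 128 := (and128 hl).1
    refine ⟨h1, ?_⟩
    rw [hq_pt hx]
    have h2 := imB_iff.1 (allB_iff.1 (allB_iff.1 ov_tab c hc) l h1) hl
    unfold ovB at h2
    simp only [Bool.or_eq_true, Bool.and_eq_true, Nat.ble_eq, Nat.beq_eq] at h2
    rcases h2 with ((h2 | h2) | ⟨⟨h2, h3⟩, h4⟩) | ⟨⟨h2, h3⟩, h4⟩
    · rw [h2, pt_121]; exact not_not.2 hT
    · rw [h2, pt_123]; exact not_not.2 hP
    · rw [pt_E h2 (by omega)]; exact fun h5 => h5 _ hk _ hj' h4 hV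
    · rw [pt_F h2 (by omega)]; exact fun h5 => h5 _ hk _ hj' h4 hV
  · have h0 : KK M q (nbw TB x c) := p12_ind KK.lor fun s hs => p1_V H hx hc hs hq6 hV
    exact KW.lor h0.1 h0.2
  · rw [lt_iff] at h
    exact KW.lor (lw_KW h hc (M.vpv hk hx hj hq6 hV)) (ob_KW h hc hV)

/-- **The row of an open germ.** -/
theorem pvwin_KW (H : Tab NP NW nbr TB WN) {x c : ℕ} (hx : x < NP) (hc : c < 48) (hq6 : q < 6)
    (hV : M.PV (c / 12) x (c % 12) q) : KW M q (pvwin NP NW TB x c) := by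
  obtain ⟨hk, hj, hj'⟩ := cell_lt hc
  have hP : M.P x q := M.pvp hk hx hj hq6 hV
  unfold pvwin
  refine KW.lor ?_ (KW.lor ?_ (KW.br (fun h => ?_) (fun _ => KW.zero)))
  · have e : Nat.shiftLeft 1 (Nat.add (Nat.mul 128 x) 123) = Nat.shiftLeft (1 <<< 123) (128 * x) := by
      simp only [r_sl, r_add, r_mul]
      rw [Nat.shiftLeft_eq, Nat.shiftLeft_eq, Nat.shiftLeft_eq, pow_add]; ring
    rw [e]
    refine KW.shift (by omega) fun l hl => ?_
    have h1 : l = 123 := by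
      rw [Nat.one_shiftLeft, Nat.testBit_two_pow, decide_eq_true_eq] at hl; exact hl.symm
    rw [h1, hq_pt hx, pt_123]
    exact ⟨by norm_num, not_not.2 hP⟩
  · exact p12_ind (Q := KW M q) KW.lor fun s hs => p1_P H hx hc hs hq6 hV
  · rw [lt_iff] at h
    exact lw_KW h hc hV

end Vale.Agent.P032.H286.E
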