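import Vale.Agent.P032.H286.Cla

/-!
# P032: the engine with one mask of dead literals (soundness)

* `pl_spec` : the place of an external literal,
* `run_sound`, `echk_sound` : a certificate refutes all models in which the external clauses hold.
-/

namespace Vale.Agent.P032.H286.E

open Vale.Agent.P032.H820.K

variable {NP NW : ℕ} {nbr : ℕ → ℕ → ℕ} {TB WN : ℕ} {M : Md 2 NP NW nbr} {q : ℕ}

/-- the meaning of an atom with decoded fields -/
def avd (M : Md 2 NP NW nbr) (kd x j k q : ℕ) : Prop :=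
  if kd = 0 then M.V k x j q else
  if kd = 1 then M.PV k x j q else
  if kd = 2 then M.H x j q else
  if kd = 3 then M.PH x j q else
  if kd = 4 then M.T x q else
  if kd = 5 then M.P x q else
  if kd = 6 then M.X x else
  if kd = 7 then (∀ k < 4, ∀ i < 6 * 2, ecell 2 k i j = true → ¬ M.V k x i q) else
  if kd = 8 then (∀ k < 4, ∀ i < 6 * 2, fcell 2 k i j = true → ¬ M.V k x i q) else
  if kd = 9 then M.W x j (k / 2) (k % 2) = q else
  if kd = 10 then M.L x j (k / 2) (k % 2) = q else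
  if kd = 11 then M.S60 x j q else
  if kd = 12 then M.Ap x j q else
  if kd = 13 then M.Bm x j q else
  if kd = 14 then M.AR x j q else M.AL x j q

theorem av_avd (n : ℕ) : av M n = avd M (a0 n) (a1 n) (a2 n) (a3 n) (a4 n) := rfl

/-- the meaning of a literal with decoded fields -/
def lvd (M : Md 2 NP NW nbr) (s kd x j k q : ℕ) : Prop := if s = 0 then avd M kd x j k q else ¬ avd M kd x j k q

theorem brn {b : Bool} {v : ℕ} (h : Nat.beq (E.br b v 127) 127 = false) : b = true := by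
  cases b
  · exact absurd (show Nat.beq 127 127 = false from h) (by decide)
  · rfl

theorem pl_0_0 {x j k q : ℕ} (h : Nat.beq (pl NP NW 0 0 x j k q) 127 = false) :
    hl M (pos NP NW (E.br (Nat.beq 0 6) 0 q) (bl NP NW 0 0 x) (pl NP NW 0 0 x j k q)) ↔ lvd M 0 0 x j k q := by
  have hNP := M.hNW
  unfold pl at h ⊢
  have hq := brn h
  rw [hq, br_t] at h ⊢
  rw [show lt 0 9 = true from rfl, br_t] at h ⊢
  have hx := brn h
  rw [hx, br_t] at h ⊢
  rw [show lt 0 2 = true from rfl, br_t] at h ⊢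
  have hk := brn h
  rw [hk, br_t] at h ⊢
  have hj := brn h
  rw [hj, br_t] at h ⊢
  rw [show Nat.beq 0 0 = true from rfl, br_t] at h ⊢
  rw [Nat.ble_eq] at hq
  rw [lt_iff] at hx hk hj
  have e : Nat.add (Nat.mul 48 0) (Nat.add (Nat.mul 12 k) j) = 12 * k + j := by simp only [r_add, r_mul]; omega
  rw [e]
  show hl M (pos NP NW q x (12 * k + j)) ↔ M.V k x j q
  rw [hl_pos (by omega) (by omega) (by omega), hq_pt hx, pt_V (by omega)]
  have e1 : (12 * k + j) / 12 = k := by omega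
  have e2 : (12 * k + j) % 12 = j := by omega
  rw [e1, e2]

theorem pl_0_1 {x j k q : ℕ} (h : Nat.beq (pl NP NW 1 0 x j k q) 127 = false) :
    hl M (pos NP NW (E.br (Nat.beq 0 6) 0 q) (bl NP NW 1 0 x) (pl NP NW 1 0 x j k q)) ↔ lvd M 1 0 x j k q := by
  have hNP := M.hNW
  unfold pl at h ⊢
  have hq := brn h
  rw [hq, br_t] at h ⊢
  rw [show lt 0 9 = true from rfl, br_t] at h ⊢
  have hx := brn h
  rw [hx, br_t] at h ⊢
  rw [show lt 0 2 = true from rfl, br_t] at h ⊢
  have hk := brn h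
  rw [hk, br_t] at h ⊢
  have hj := brn h
  rw [hj, br_t] at h ⊢
  rw [show Nat.beq 1 0 = false from rfl, br_f] at h ⊢
  rw [show Nat.beq 0 0 = true from rfl, br_t] at h ⊢
  have hxw := brn h
  rw [hxw, br_t] at h ⊢
  rw [Nat.ble_eq] at hq
  rw [lt_iff] at hx hk hj hxw
  have e : Nat.succ (Nat.add (Nat.add NP NW) x) = NP + 1 + NW + x := by simp only [r_add, r_succ]; omega
  have e0 : Nat.add 60 (Nat.add (Nat.mul 12 k) j) = 60 + (12 * k + j) := by simp only [r_add, r_mul]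
  rw [e0]
  show hl M (pos NP NW q (Nat.succ (Nat.add (Nat.add NP NW) x)) (60 + (12 * k + j))) ↔ ¬ M.V k x j q
  rw [e, hl_pos (by omega) (by omega) (by omega), hq_bt hxw, bt60 (by omega) (by omega)]
  have e1 : (60 + (12 * k + j) - 60) / 12 = k := by omega
  have e2 : (60 + (12 * k + j) - 60) % 12 = j := by omega
  rw [e1, e2]

theorem pl_1_0 {x j k q : ℕ} (h : Nat.beq (pl NP NW 0 1 x j k q) 127 = false) :
    hl M (pos NP NW (E.br (Nat.beq 1 6) 0 q) (bl NP NW 0 1 x) (pl NP NW 0 1 x j k q)) ↔ lvd M 0 1 x j k q := by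
  have hNP := M.hNW
  unfold pl at h ⊢
  have hq := brn h
  rw [hq, br_t] at h ⊢
  rw [show lt 1 9 = true from rfl, br_t] at h ⊢
  have hx := brn h
  rw [hx, br_t] at h ⊢
  rw [show lt 1 2 = true from rfl, br_t] at h ⊢
  have hk := brn h
  rw [hk, br_t] at h ⊢
  have hj := brn h
  rw [hj, br_t] at h ⊢
  rw [show Nat.beq 0 0 = true from rfl, br_t] at h ⊢
  rw [Nat.ble_eq] at hq
  rw [lt_iff] at hx hk hj
  have e : Nat.add (Nat.mul 48 1) (Nat.add (Nat.mul 12 k) j) = 48 + (12 * k + j) := by simp only [r_add, r_mul]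
  rw [e]
  show hl M (pos NP NW q x (48 + (12 * k + j))) ↔ M.PV k x j q
  rw [hl_pos (by omega) (by omega) (by omega), hq_pt hx, pt_PV (by omega) (by omega)]
  have e1 : (48 + (12 * k + j) - 48) / 12 = k := by omega
  have e2 : (48 + (12 * k + j) - 48) % 12 = j := by omega
  rw [e1, e2]

theorem pl_4_0 {x j k q : ℕ} (h : Nat.beq (pl NP NW 0 4 x j k q) 127 = false) :
    hl M (pos NP NW (E.br (Nat.beq 4 6) 0 q) (bl NP NW 0 4 x) (pl NP NW 0 4 x j k q)) ↔ lvd M 0 4 x j k q := by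
  have hNP := M.hNW
  unfold pl at h ⊢
  have hq := brn h
  rw [hq, br_t] at h ⊢
  rw [show lt 4 9 = true from rfl, br_t] at h ⊢
  have hx := brn h
  rw [hx, br_t] at h ⊢
  rw [show lt 4 2 = false from rfl, br_f] at h ⊢
  rw [show lt 4 4 = false from rfl, br_f] at h ⊢
  rw [show lt 4 7 = true from rfl, br_t] at h ⊢
  rw [Nat.ble_eq] at hq
  rw [lt_iff] at hx
  show hl M (pos NP NW q x 120) ↔ M.T x q
  rw [hl_pos (by omega) (by omega) (by omega), hq_pt hx, pt_120]

theorem pl_4_1 {x j k q : ℕ} (h : Nat.beq (pl NP NW 1 4 x j k q) 127 = false) :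
    hl M (pos NP NW (E.br (Nat.beq 4 6) 0 q) (bl NP NW 1 4 x) (pl NP NW 1 4 x j k q)) ↔ lvd M 1 4 x j k q := by
  have hNP := M.hNW
  unfold pl at h ⊢
  have hq := brn h
  rw [hq, br_t] at h ⊢
  rw [show lt 4 9 = true from rfl, br_t] at h ⊢
  have hx := brn h
  rw [hx, br_t] at h ⊢
  rw [show lt 4 2 = false from rfl, br_f] at h ⊢
  rw [show lt 4 4 = false from rfl, br_f] at h ⊢
  rw [show lt 4 7 = true from rfl, br_t] at h ⊢
  rw [Nat.ble_eq] at hq
  rw [lt_iff] at hx
  show hl M (pos NP NW q x 121) ↔ ¬ M.T x q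
  rw [hl_pos (by omega) (by omega) (by omega), hq_pt hx, pt_121]

theorem pl_5_0 {x j k q : ℕ} (h : Nat.beq (pl NP NW 0 5 x j k q) 127 = false) :
    hl M (pos NP NW (E.br (Nat.beq 5 6) 0 q) (bl NP NW 0 5 x) (pl NP NW 0 5 x j k q)) ↔ lvd M 0 5 x j k q := by
  have hNP := M.hNW
  unfold pl at h ⊢
  have hq := brn h
  rw [hq, br_t] at h ⊢
  rw [show lt 5 9 = true from rfl, br_t] at h ⊢
  have hx := brn h
  rw [hx, br_t] at h ⊢
  rw [show lt 5 2 = false from rfl, br_f] at h ⊢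
  rw [show lt 5 4 = false from rfl, br_f] at h ⊢
  rw [show lt 5 7 = true from rfl, br_t] at h ⊢
  rw [Nat.ble_eq] at hq
  rw [lt_iff] at hx
  show hl M (pos NP NW q x 122) ↔ M.P x q
  rw [hl_pos (by omega) (by omega) (by omega), hq_pt hx, pt_122]

theorem pl_5_1 {x j k q : ℕ} (h : Nat.beq (pl NP NW 1 5 x j k q) 127 = false) :
    hl M (pos NP NW (E.br (Nat.beq 5 6) 0 q) (bl NP NW 1 5 x) (pl NP NW 1 5 x j k q)) ↔ lvd M 1 5 x j k q := by
  have hNP := M.hNW
  unfold pl at h ⊢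
  have hq := brn h
  rw [hq, br_t] at h ⊢
  rw [show lt 5 9 = true from rfl, br_t] at h ⊢
  have hx := brn h
  rw [hx, br_t] at h ⊢
  rw [show lt 5 2 = false from rfl, br_f] at h ⊢
  rw [show lt 5 4 = false from rfl, br_f] at h ⊢
  rw [show lt 5 7 = true from rfl, br_t] at h ⊢
  rw [Nat.ble_eq] at hq
  rw [lt_iff] at hx
  show hl M (pos NP NW q x 123) ↔ ¬ M.P x q
  rw [hl_pos (by omega) (by omega) (by omega), hq_pt hx, pt_123]

theorem pl_6_0 {x j k q : ℕ} (h : Nat.beq (pl NP NW 0 6 x j k q) 127 = false) :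
    hl M (pos NP NW (E.br (Nat.beq 6 6) 0 q) (bl NP NW 0 6 x) (pl NP NW 0 6 x j k q)) ↔ lvd M 0 6 x j k q := by
  have hNP := M.hNW
  unfold pl at h ⊢
  have hq := brn h
  rw [hq, br_t] at h ⊢
  rw [show lt 6 9 = true from rfl, br_t] at h ⊢
  have hx := brn h
  rw [hx, br_t] at h ⊢
  rw [show lt 6 2 = false from rfl, br_f] at h ⊢
  rw [show lt 6 4 = false from rfl, br_f] at h ⊢
  rw [show lt 6 7 = true from rfl, br_t] at h ⊢
  rw [Nat.ble_eq] at hq
  rw [lt_iff] at hx
  show hl M (pos NP NW 0 x 124) ↔ M.X x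
  rw [hl_pos (by omega) (by omega) (by omega), hq_pt hx, pt_124]
  exact ⟨fun h => h.2, fun h => ⟨rfl, h⟩⟩

theorem pl_6_1 {x j k q : ℕ} (h : Nat.beq (pl NP NW 1 6 x j k q) 127 = false) :
    hl M (pos NP NW (E.br (Nat.beq 6 6) 0 q) (bl NP NW 1 6 x) (pl NP NW 1 6 x j k q)) ↔ lvd M 1 6 x j k q := by
  have hNP := M.hNW
  unfold pl at h ⊢
  have hq := brn h
  rw [hq, br_t] at h ⊢
  rw [show lt 6 9 = true from rfl, br_t] at h ⊢
  have hx := brn h
  rw [hx, br_t] at h ⊢
  rw [show lt 6 2 = false from rfl, br_f] at h ⊢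
  rw [show lt 6 4 = false from rfl, br_f] at h ⊢
  rw [show lt 6 7 = true from rfl, br_t] at h ⊢
  rw [Nat.ble_eq] at hq
  rw [lt_iff] at hx
  show hl M (pos NP NW 0 x 125) ↔ ¬ M.X x
  rw [hl_pos (by omega) (by omega) (by omega), hq_pt hx, pt_125]
  exact ⟨fun h => h.2, fun h => ⟨rfl, h⟩⟩

theorem pl_7_0 {x j k q : ℕ} (h : Nat.beq (pl NP NW 0 7 x j k q) 127 = false) :
    hl M (pos NP NW (E.br (Nat.beq 7 6) 0 q) (bl NP NW 0 7 x) (pl NP NW 0 7 x j k q)) ↔ lvd M 0 7 x j k q := by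
  have hNP := M.hNW
  unfold pl at h ⊢
  have hq := brn h
  rw [hq, br_t] at h ⊢
  rw [show lt 7 9 = true from rfl, br_t] at h ⊢
  have hx := brn h
  rw [hx, br_t] at h ⊢
  rw [show lt 7 2 = false from rfl, br_f] at h ⊢
  rw [show lt 7 4 = false from rfl, br_f] at h ⊢
  rw [show lt 7 7 = false from rfl, br_f] at h ⊢
  have hj := brn h
  rw [hj, br_t] at h ⊢
  rw [show Nat.beq 0 0 = true from rfl, br_t] at h ⊢
  rw [Nat.ble_eq] at hq
  rw [lt_iff] at hx hj
  have e : Nat.add (Nat.mul 12 7) (Nat.add 12 j) = 96 + j := by simp only [r_add, r_mul]; omega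
  rw [e]
  show hl M (pos NP NW q x (96 + j)) ↔ (∀ k < 4, ∀ i < 6 * 2, ecell 2 k i j = true → ¬ M.V k x i q)
  rw [hl_pos (by omega) (by omega) (by omega), hq_pt hx, pt_E (by omega) (by omega)]
  have e1 : 96 + j - 96 = j := by omega
  rw [e1]

theorem pl_8_0 {x j k q : ℕ} (h : Nat.beq (pl NP NW 0 8 x j k q) 127 = false) :
    hl M (pos NP NW (E.br (Nat.beq 8 6) 0 q) (bl NP NW 0 8 x) (pl NP NW 0 8 x j k q)) ↔ lvd M 0 8 x j k q := by
  have hNP := M.hNW
  unfold pl at h ⊢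
  have hq := brn h
  rw [hq, br_t] at h ⊢
  rw [show lt 8 9 = true from rfl, br_t] at h ⊢
  have hx := brn h
  rw [hx, br_t] at h ⊢
  rw [show lt 8 2 = false from rfl, br_f] at h ⊢
  rw [show lt 8 4 = false from rfl, br_f] at h ⊢
  rw [show lt 8 7 = false from rfl, br_f] at h ⊢
  have hj := brn h
  rw [hj, br_t] at h ⊢
  rw [show Nat.beq 0 0 = true from rfl, br_t] at h ⊢
  rw [Nat.ble_eq] at hq
  rw [lt_iff] at hx hj
  have e : Nat.add (Nat.mul 12 8) (Nat.add 12 j) = 108 + j := by simp only [r_add, r_mul]; omega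
  rw [e]
  show hl M (pos NP NW q x (108 + j)) ↔ (∀ k < 4, ∀ i < 6 * 2, fcell 2 k i j = true → ¬ M.V k x i q)
  rw [hl_pos (by omega) (by omega) (by omega), hq_pt hx, pt_F (by omega) (by omega)]
  have e1 : 108 + j - 108 = j := by omega
  rw [e1]

theorem pl_9_0 {x j k q : ℕ} (h : Nat.beq (pl NP NW 0 9 x j k q) 127 = false) :
    hl M (pos NP NW (E.br (Nat.beq 9 6) 0 q) (bl NP NW 0 9 x) (pl NP NW 0 9 x j k q)) ↔ lvd M 0 9 x j k q := by
  have hNP := M.hNW
  unfold pl at h ⊢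
  have hq := brn h
  rw [hq, br_t] at h ⊢
  rw [show lt 9 9 = false from rfl, br_f] at h ⊢
  have hx := brn h
  rw [hx, br_t] at h ⊢
  rw [show Nat.beq 9 9 = true from rfl, br_t] at h ⊢
  have hj := brn h
  rw [hj, br_t] at h ⊢
  have hk := brn h
  rw [hk, br_t] at h ⊢
  rw [Nat.ble_eq] at hq
  rw [lt_iff] at hx hj hk
  have e : Nat.succ (Nat.add NP x) = NP + 1 + x := by simp only [r_add, r_succ]; omega
  have e3 : Nat.add (Nat.mul 48 0) (Nat.add (Nat.mul 4 j) k) = 4 * j + k := by simp only [r_add, r_mul]; omega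
  rw [e3]
  show hl M (pos NP NW q (Nat.succ (Nat.add NP x)) (4 * j + k)) ↔ M.W x j (k / 2) (k % 2) = q
  rw [e, hl_pos (by omega) (by omega) (by omega), hq_wd hx, wd_W (by omega)]
  have e0 : (4 * j + k) / 4 = j := by omega
  have e1 : (4 * j + k) / 2 % 2 = k / 2 := by omega
  have e2 : (4 * j + k) % 2 = k % 2 := by omega
  rw [e0, e1, e2]

theorem pl_9_1 {x j k q : ℕ} (h : Nat.beq (pl NP NW 1 9 x j k q) 127 = false) :
    hl M (pos NP NW (E.br (Nat.beq 9 6) 0 q) (bl NP NW 1 9 x) (pl NP NW 1 9 x j k q)) ↔ lvd M 1 9 x j k q := by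
  have hNP := M.hNW
  unfold pl at h ⊢
  have hq := brn h
  rw [hq, br_t] at h ⊢
  rw [show lt 9 9 = false from rfl, br_f] at h ⊢
  have hx := brn h
  rw [hx, br_t] at h ⊢
  rw [show Nat.beq 9 9 = true from rfl, br_t] at h ⊢
  have hj := brn h
  rw [hj, br_t] at h ⊢
  have hk := brn h
  rw [hk, br_t] at h ⊢
  rw [Nat.ble_eq] at hq
  rw [lt_iff] at hx hj hk
  have e : Nat.succ (Nat.add NP x) = NP + 1 + x := by simp only [r_add, r_succ]; omega
  have e3 : Nat.add (Nat.mul 48 1) (Nat.add (Nat.mul 4 j) k) = 48 + (4 * j + k) := by simp only [r_add, r_mul]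
  rw [e3]
  show hl M (pos NP NW q (Nat.succ (Nat.add NP x)) (48 + (4 * j + k))) ↔ ¬ M.W x j (k / 2) (k % 2) = q
  rw [e, hl_pos (by omega) (by omega) (by omega), hq_wd hx, wd_nW (by omega)]
  have e0 : (4 * j + k) / 4 = j := by omega
  have e1 : (4 * j + k) / 2 % 2 = k / 2 := by omega
  have e2 : (4 * j + k) % 2 = k % 2 := by omega
  rw [e0, e1, e2]

theorem pl_11_0 {x j k q : ℕ} (h : Nat.beq (pl NP NW 0 11 x j k q) 127 = false) :
    hl M (pos NP NW (E.br (Nat.beq 11 6) 0 q) (bl NP NW 0 11 x) (pl NP NW 0 11 x j k q)) ↔ lvd M 0 11 x j k q := by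
  have hNP := M.hNW
  unfold pl at h ⊢
  have hq := brn h
  rw [hq, br_t] at h ⊢
  rw [show lt 11 9 = false from rfl, br_f] at h ⊢
  have hx := brn h
  rw [hx, br_t] at h ⊢
  rw [show Nat.beq 11 9 = false from rfl, br_f] at h ⊢
  rw [show Nat.beq 11 10 = false from rfl, br_f] at h ⊢
  have hj := brn h
  rw [hj, br_t] at h ⊢
  rw [Nat.ble_eq] at hq
  rw [lt_iff] at hx hj
  have e : Nat.succ (Nat.add (Nat.add NP NW) x) = NP + 1 + NW + x := by simp only [r_add, r_succ]; omega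
  have e3 : Nat.add (Nat.mul 12 (Nat.sub 11 11)) (Nat.add (Nat.mul 6 0) j) = j := by
    simp only [r_add, r_mul, r_sub]; omega
  rw [e3]
  show hl M (pos NP NW q (Nat.succ (Nat.add (Nat.add NP NW) x)) (j)) ↔ M.S60 x j q
  rw [e, hl_pos (by omega) (by omega) (by omega), hq_bt hx, bt0 (by omega)]

theorem pl_11_1 {x j k q : ℕ} (h : Nat.beq (pl NP NW 1 11 x j k q) 127 = false) :
    hl M (pos NP NW (E.br (Nat.beq 11 6) 0 q) (bl NP NW 1 11 x) (pl NP NW 1 11 x j k q)) ↔ lvd M 1 11 x j k q := by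
  have hNP := M.hNW
  unfold pl at h ⊢
  have hq := brn h
  rw [hq, br_t] at h ⊢
  rw [show lt 11 9 = false from rfl, br_f] at h ⊢
  have hx := brn h
  rw [hx, br_t] at h ⊢
  rw [show Nat.beq 11 9 = false from rfl, br_f] at h ⊢
  rw [show Nat.beq 11 10 = false from rfl, br_f] at h ⊢
  have hj := brn h
  rw [hj, br_t] at h ⊢
  rw [Nat.ble_eq] at hq
  rw [lt_iff] at hx hj
  have e : Nat.succ (Nat.add (Nat.add NP NW) x) = NP + 1 + NW + x := by simp only [r_add, r_succ]; omega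
  have e3 : Nat.add (Nat.mul 12 (Nat.sub 11 11)) (Nat.add (Nat.mul 6 1) j) = 6 + j := by
    simp only [r_add, r_mul, r_sub]; omega
  rw [e3]
  show hl M (pos NP NW q (Nat.succ (Nat.add (Nat.add NP NW) x)) (6 + j)) ↔ ¬ M.S60 x j q
  rw [e, hl_pos (by omega) (by omega) (by omega), hq_bt hx, bt6 (by omega) (by omega)]
  have e1 : 6 + j - 6 = j := by omega
  rw [e1]

theorem pl_12_0 {x j k q : ℕ} (h : Nat.beq (pl NP NW 0 12 x j k q) 127 = false) :
    hl M (pos NP NW (E.br (Nat.beq 12 6) 0 q) (bl NP NW 0 12 x) (pl NP NW 0 12 x j k q)) ↔ lvd M 0 12 x j k q := by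
  have hNP := M.hNW
  unfold pl at h ⊢
  have hq := brn h
  rw [hq, br_t] at h ⊢
  rw [show lt 12 9 = false from rfl, br_f] at h ⊢
  have hx := brn h
  rw [hx, br_t] at h ⊢
  rw [show Nat.beq 12 9 = false from rfl, br_f] at h ⊢
  rw [show Nat.beq 12 10 = false from rfl, br_f] at h ⊢
  have hj := brn h
  rw [hj, br_t] at h ⊢
  rw [Nat.ble_eq] at hq
  rw [lt_iff] at hx hj
  have e : Nat.succ (Nat.add (Nat.add NP NW) x) = NP + 1 + NW + x := by simp only [r_add, r_succ]; omega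
  have e3 : Nat.add (Nat.mul 12 (Nat.sub 12 11)) (Nat.add (Nat.mul 6 0) j) = 12 + j := by
    simp only [r_add, r_mul, r_sub]; omega
  rw [e3]
  show hl M (pos NP NW q (Nat.succ (Nat.add (Nat.add NP NW) x)) (12 + j)) ↔ M.Ap x j q
  rw [e, hl_pos (by omega) (by omega) (by omega), hq_bt hx, bt12 (by omega) (by omega)]
  have e1 : 12 + j - 12 = j := by omega
  rw [e1]

theorem pl_12_1 {x j k q : ℕ} (h : Nat.beq (pl NP NW 1 12 x j k q) 127 = false) :
    hl M (pos NP NW (E.br (Nat.beq 12 6) 0 q) (bl NP NW 1 12 x) (pl NP NW 1 12 x j k q)) ↔ lvd M 1 12 x j k q := by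
  have hNP := M.hNW
  unfold pl at h ⊢
  have hq := brn h
  rw [hq, br_t] at h ⊢
  rw [show lt 12 9 = false from rfl, br_f] at h ⊢
  have hx := brn h
  rw [hx, br_t] at h ⊢
  rw [show Nat.beq 12 9 = false from rfl, br_f] at h ⊢
  rw [show Nat.beq 12 10 = false from rfl, br_f] at h ⊢
  have hj := brn h
  rw [hj, br_t] at h ⊢
  rw [Nat.ble_eq] at hq
  rw [lt_iff] at hx hj
  have e : Nat.succ (Nat.add (Nat.add NP NW) x) = NP + 1 + NW + x := by simp only [r_add, r_succ]; omega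
  have e3 : Nat.add (Nat.mul 12 (Nat.sub 12 11)) (Nat.add (Nat.mul 6 1) j) = 18 + j := by
    simp only [r_add, r_mul, r_sub]; omega
  rw [e3]
  show hl M (pos NP NW q (Nat.succ (Nat.add (Nat.add NP NW) x)) (18 + j)) ↔ ¬ M.Ap x j q
  rw [e, hl_pos (by omega) (by omega) (by omega), hq_bt hx, bt18 (by omega) (by omega)]
  have e1 : 18 + j - 18 = j := by omega
  rw [e1]

theorem pl_13_0 {x j k q : ℕ} (h : Nat.beq (pl NP NW 0 13 x j k q) 127 = false) :
    hl M (pos NP NW (E.br (Nat.beq 13 6) 0 q) (bl NP NW 0 13 x) (pl NP NW 0 13 x j k q)) ↔ lvd M 0 13 x j k q := by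
  have hNP := M.hNW
  unfold pl at h ⊢
  have hq := brn h
  rw [hq, br_t] at h ⊢
  rw [show lt 13 9 = false from rfl, br_f] at h ⊢
  have hx := brn h
  rw [hx, br_t] at h ⊢
  rw [show Nat.beq 13 9 = false from rfl, br_f] at h ⊢
  rw [show Nat.beq 13 10 = false from rfl, br_f] at h ⊢
  have hj := brn h
  rw [hj, br_t] at h ⊢
  rw [Nat.ble_eq] at hq
  rw [lt_iff] at hx hj
  have e : Nat.succ (Nat.add (Nat.add NP NW) x) = NP + 1 + NW + x := by simp only [r_add, r_succ]; omega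
  have e3 : Nat.add (Nat.mul 12 (Nat.sub 13 11)) (Nat.add (Nat.mul 6 0) j) = 24 + j := by
    simp only [r_add, r_mul, r_sub]; omega
  rw [e3]
  show hl M (pos NP NW q (Nat.succ (Nat.add (Nat.add NP NW) x)) (24 + j)) ↔ M.Bm x j q
  rw [e, hl_pos (by omega) (by omega) (by omega), hq_bt hx, bt24 (by omega) (by omega)]
  have e1 : 24 + j - 24 = j := by omega
  rw [e1]

theorem pl_13_1 {x j k q : ℕ} (h : Nat.beq (pl NP NW 1 13 x j k q) 127 = false) :
    hl M (pos NP NW (E.br (Nat.beq 13 6) 0 q) (bl NP NW 1 13 x) (pl NP NW 1 13 x j k q)) ↔ lvd M 1 13 x j k q := by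
  have hNP := M.hNW
  unfold pl at h ⊢
  have hq := brn h
  rw [hq, br_t] at h ⊢
  rw [show lt 13 9 = false from rfl, br_f] at h ⊢
  have hx := brn h
  rw [hx, br_t] at h ⊢
  rw [show Nat.beq 13 9 = false from rfl, br_f] at h ⊢
  rw [show Nat.beq 13 10 = false from rfl, br_f] at h ⊢
  have hj := brn h
  rw [hj, br_t] at h ⊢
  rw [Nat.ble_eq] at hq
  rw [lt_iff] at hx hj
  have e : Nat.succ (Nat.add (Nat.add NP NW) x) = NP + 1 + NW + x := by simp only [r_add, r_succ]; omega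
  have e3 : Nat.add (Nat.mul 12 (Nat.sub 13 11)) (Nat.add (Nat.mul 6 1) j) = 30 + j := by
    simp only [r_add, r_mul, r_sub]; omega
  rw [e3]
  show hl M (pos NP NW q (Nat.succ (Nat.add (Nat.add NP NW) x)) (30 + j)) ↔ ¬ M.Bm x j q
  rw [e, hl_pos (by omega) (by omega) (by omega), hq_bt hx, bt30 (by omega) (by omega)]
  have e1 : 30 + j - 30 = j := by omega
  rw [e1]

theorem pl_14_0 {x j k q : ℕ} (h : Nat.beq (pl NP NW 0 14 x j k q) 127 = false) :
    hl M (pos NP NW (E.br (Nat.beq 14 6) 0 q) (bl NP NW 0 14 x) (pl NP NW 0 14 x j k q)) ↔ lvd M 0 14 x j k q := by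
  have hNP := M.hNW
  unfold pl at h ⊢
  have hq := brn h
  rw [hq, br_t] at h ⊢
  rw [show lt 14 9 = false from rfl, br_f] at h ⊢
  have hx := brn h
  rw [hx, br_t] at h ⊢
  rw [show Nat.beq 14 9 = false from rfl, br_f] at h ⊢
  rw [show Nat.beq 14 10 = false from rfl, br_f] at h ⊢
  have hj := brn h
  rw [hj, br_t] at h ⊢
  rw [Nat.ble_eq] at hq
  rw [lt_iff] at hx hj
  have e : Nat.succ (Nat.add (Nat.add NP NW) x) = NP + 1 + NW + x := by simp only [r_add, r_succ]; omega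
  have e3 : Nat.add (Nat.mul 12 (Nat.sub 14 11)) (Nat.add (Nat.mul 6 0) j) = 36 + j := by
    simp only [r_add, r_mul, r_sub]; omega
  rw [e3]
  show hl M (pos NP NW q (Nat.succ (Nat.add (Nat.add NP NW) x)) (36 + j)) ↔ M.AR x j q
  rw [e, hl_pos (by omega) (by omega) (by omega), hq_bt hx, bt36 (by omega) (by omega)]
  have e1 : 36 + j - 36 = j := by omega
  rw [e1]

theorem pl_14_1 {x j k q : ℕ} (h : Nat.beq (pl NP NW 1 14 x j k q) 127 = false) :
    hl M (pos NP NW (E.br (Nat.beq 14 6) 0 q) (bl NP NW 1 14 x) (pl NP NW 1 14 x j k q)) ↔ lvd M 1 14 x j k q := by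
  have hNP := M.hNW
  unfold pl at h ⊢
  have hq := brn h
  rw [hq, br_t] at h ⊢
  rw [show lt 14 9 = false from rfl, br_f] at h ⊢
  have hx := brn h
  rw [hx, br_t] at h ⊢
  rw [show Nat.beq 14 9 = false from rfl, br_f] at h ⊢
  rw [show Nat.beq 14 10 = false from rfl, br_f] at h ⊢
  have hj := brn h
  rw [hj, br_t] at h ⊢
  rw [Nat.ble_eq] at hq
  rw [lt_iff] at hx hj
  have e : Nat.succ (Nat.add (Nat.add NP NW) x) = NP + 1 + NW + x := by simp only [r_add, r_succ]; omega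
  have e3 : Nat.add (Nat.mul 12 (Nat.sub 14 11)) (Nat.add (Nat.mul 6 1) j) = 42 + j := by
    simp only [r_add, r_mul, r_sub]; omega
  rw [e3]
  show hl M (pos NP NW q (Nat.succ (Nat.add (Nat.add NP NW) x)) (42 + j)) ↔ ¬ M.AR x j q
  rw [e, hl_pos (by omega) (by omega) (by omega), hq_bt hx, bt42 (by omega) (by omega)]
  have e1 : 42 + j - 42 = j := by omega
  rw [e1]

theorem pl_15_0 {x j k q : ℕ} (h : Nat.beq (pl NP NW 0 15 x j k q) 127 = false) :
    hl M (pos NP NW (E.br (Nat.beq 15 6) 0 q) (bl NP NW 0 15 x) (pl NP NW 0 15 x j k q)) ↔ lvd M 0 15 x j k q := by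
  have hNP := M.hNW
  unfold pl at h ⊢
  have hq := brn h
  rw [hq, br_t] at h ⊢
  rw [show lt 15 9 = false from rfl, br_f] at h ⊢
  have hx := brn h
  rw [hx, br_t] at h ⊢
  rw [show Nat.beq 15 9 = false from rfl, br_f] at h ⊢
  rw [show Nat.beq 15 10 = false from rfl, br_f] at h ⊢
  have hj := brn h
  rw [hj, br_t] at h ⊢
  rw [Nat.ble_eq] at hq
  rw [lt_iff] at hx hj
  have e : Nat.succ (Nat.add (Nat.add NP NW) x) = NP + 1 + NW + x := by simp only [r_add, r_succ]; omega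
  have e3 : Nat.add (Nat.mul 12 (Nat.sub 15 11)) (Nat.add (Nat.mul 6 0) j) = 48 + j := by
    simp only [r_add, r_mul, r_sub]; omega
  rw [e3]
  show hl M (pos NP NW q (Nat.succ (Nat.add (Nat.add NP NW) x)) (48 + j)) ↔ M.AL x j q
  rw [e, hl_pos (by omega) (by omega) (by omega), hq_bt hx, bt48 (by omega) (by omega)]
  have e1 : 48 + j - 48 = j := by omega
  rw [e1]

theorem pl_15_1 {x j k q : ℕ} (h : Nat.beq (pl NP NW 1 15 x j k q) 127 = false) :
    hl M (pos NP NW (E.br (Nat.beq 15 6) 0 q) (bl NP NW 1 15 x) (pl NP NW 1 15 x j k q)) ↔ lvd M 1 15 x j k q := by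
  have hNP := M.hNW
  unfold pl at h ⊢
  have hq := brn h
  rw [hq, br_t] at h ⊢
  rw [show lt 15 9 = false from rfl, br_f] at h ⊢
  have hx := brn h
  rw [hx, br_t] at h ⊢
  rw [show Nat.beq 15 9 = false from rfl, br_f] at h ⊢
  rw [show Nat.beq 15 10 = false from rfl, br_f] at h ⊢
  have hj := brn h
  rw [hj, br_t] at h ⊢
  rw [Nat.ble_eq] at hq
  rw [lt_iff] at hx hj
  have e : Nat.succ (Nat.add (Nat.add NP NW) x) = NP + 1 + NW + x := by simp only [r_add, r_succ]; omega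
  have e3 : Nat.add (Nat.mul 12 (Nat.sub 15 11)) (Nat.add (Nat.mul 6 1) j) = 54 + j := by
    simp only [r_add, r_mul, r_sub]; omega
  rw [e3]
  show hl M (pos NP NW q (Nat.succ (Nat.add (Nat.add NP NW) x)) (54 + j)) ↔ ¬ M.AL x j q
  rw [e, hl_pos (by omega) (by omega) (by omega), hq_bt hx, bt54 (by omega) (by omega)]
  have e1 : 54 + j - 54 = j := by omega
  rw [e1]

theorem bad23 {s kd x j k q : ℕ} (h1 : lt kd 9 = true) (h2 : lt kd 2 = false) (h3 : lt kd 4 = true) :
    ¬ Nat.beq (pl NP NW s kd x j k q) 127 = false := by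
  unfold pl
  rw [h1, h2, h3, br_t, br_f, br_t]
  cases Nat.ble q 5 <;> cases lt x NP <;> simp only [br_t, br_f] <;> decide

theorem bad10 {s x j k q : ℕ} : ¬ Nat.beq (pl NP NW s 10 x j k q) 127 = false := by
  unfold pl
  rw [show lt 10 9 = false from rfl, show Nat.beq 10 9 = false from rfl, show Nat.beq 10 10 = true from rfl, br_f, br_f, br_t]
  cases Nat.ble q 5 <;> cases lt x NW <;> simp only [br_t, br_f] <;> decide

theorem bad1 {x j k q : ℕ} : ¬ Nat.beq (pl NP NW 1 1 x j k q) 127 = false := by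
  unfold pl
  rw [show lt 1 9 = true from rfl, show lt 1 2 = true from rfl, show Nat.beq 1 0 = false from rfl, br_t, br_t, br_f, br_f]
  cases Nat.ble q 5 <;> cases lt x NP <;> cases lt k 4 <;> cases lt j 12 <;> simp only [br_t, br_f] <;> decide

theorem bad7 {x j k q : ℕ} : ¬ Nat.beq (pl NP NW 1 7 x j k q) 127 = false := by
  unfold pl
  rw [show lt 7 9 = true from rfl, show lt 7 2 = false from rfl, show lt 7 4 = false from rfl, show lt 7 7 = false from rfl,
    show Nat.beq 1 0 = false from rfl, br_t, br_f, br_f, br_f, br_f]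
  cases Nat.ble q 5 <;> cases lt x NP <;> cases lt j 12 <;> simp only [br_t, br_f] <;> decide

theorem bad8 {x j k q : ℕ} : ¬ Nat.beq (pl NP NW 1 8 x j k q) 127 = false := by
  unfold pl
  rw [show lt 8 9 = true from rfl, show lt 8 2 = false from rfl, show lt 8 4 = false from rfl, show lt 8 7 = false from rfl,
    show Nat.beq 1 0 = false from rfl, br_t, br_f, br_f, br_f, br_f]
  cases Nat.ble q 5 <;> cases lt x NP <;> cases lt j 12 <;> simp only [br_t, br_f] <;> decide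

/-- **The place of an external literal.** -/
theorem pl_spec {s kd x j k q : ℕ} (hs : s < 2) (hkd : kd < 16) (h : Nat.beq (pl NP NW s kd x j k q) 127 = false) :
    hl M (pos NP NW (E.br (Nat.beq kd 6) 0 q) (bl NP NW s kd x) (pl NP NW s kd x j k q)) ↔ lvd M s kd x j k q := by
  interval_cases s
  · interval_cases kd
    · exact pl_0_0 h
    · exact pl_1_0 h
    · exact absurd h (bad23 (by decide : lt 2 9 = true) (by decide : lt 2 2 = false) (by decide : lt 2 4 = true))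
    · exact absurd h (bad23 (by decide : lt 3 9 = true) (by decide : lt 3 2 = false) (by decide : lt 3 4 = true))
    · exact pl_4_0 h
    · exact pl_5_0 h
    · exact pl_6_0 h
    · exact pl_7_0 h
    · exact pl_8_0 h
    · exact pl_9_0 h
    · exact absurd h bad10
    · exact pl_11_0 h
    · exact pl_12_0 h
    · exact pl_13_0 h
    · exact pl_14_0 h
    · exact pl_15_0 h
  · interval_cases kd
    · exact pl_0_1 h
    · exact absurd h bad1
    · exact absurd h (bad23 (by decide : lt 2 9 = true) (by decide : lt 2 2 = false) (by decide : lt 2 4 = true))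
    · exact absurd h (bad23 (by decide : lt 3 9 = true) (by decide : lt 3 2 = false) (by decide : lt 3 4 = true))
    · exact pl_4_1 h
    · exact pl_5_1 h
    · exact pl_6_1 h
    · exact absurd h bad7
    · exact absurd h bad8
    · exact pl_9_1 h
    · exact absurd h bad10
    · exact pl_11_1 h
    · exact pl_12_1 h
    · exact pl_13_1 h
    · exact pl_14_1 h
    · exact pl_15_1 h

/-- the decoded fields of a literal -/
theorem dec_l (L : ℕ) : Nat.land L 1 = L % 2 ∧ Nat.land (Nat.shiftRight L 1) 15 = a0 (L / 2) ∧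
    Nat.land (Nat.shiftRight L 5) 4095 = a1 (L / 2) ∧ Nat.land (Nat.shiftRight L 17) 255 = a2 (L / 2) ∧
    Nat.land (Nat.shiftRight L 25) 7 = a3 (L / 2) ∧ Nat.shiftRight L 28 = a4 (L / 2) := by
  have e1 : L &&& 1 = L % 2 := Nat.and_one_is_mod L
  have e2 : ∀ n k, n &&& (2 ^ k - 1) = n % 2 ^ k := fun n k => Nat.and_two_pow_sub_one_eq_mod n k
  have e3 : ∀ n k, n >>> k = n / 2 ^ k := fun n k => Nat.shiftRight_eq_div_pow n k
  refine ⟨e1, ?_, ?_, ?_, ?_, ?_⟩
  · show (L >>> 1) &&& (2 ^ 4 - 1) = _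
    rw [e2, e3]; unfold a0; omega
  · show (L >>> 5) &&& (2 ^ 12 - 1) = _
    rw [e2, e3]; unfold a1; omega
  · show (L >>> 17) &&& (2 ^ 8 - 1) = _
    rw [e2, e3]; unfold a2; omega
  · show (L >>> 25) &&& (2 ^ 3 - 1) = _
    rw [e2, e3]; unfold a3; omega
  · show L >>> 28 = _
    rw [e3]; unfold a4; omega

theorem lv_lvd (L : ℕ) : lv M L ↔ lvd M (L % 2) (a0 (L / 2)) (a1 (L / 2)) (a2 (L / 2)) (a3 (L / 2)) (a4 (L / 2)) := by
  unfold lv lvd
  rw [av_avd]

/-- the free atoms -/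
theorem fr_spec {L : ℕ} (h : ifr L = true) : (fpl L < 128 ∧ Nat.xor (fpl L) 1 < 128) ∧
    (hl M (pos NP NW 0 NP (fpl L)) ↔ lv M L) ∧ (hl M (pos NP NW 0 NP (Nat.xor (fpl L) 1)) ↔ ¬ lv M L) := by
  obtain ⟨e0, e1, e2, e3, e4, e5⟩ := dec_l L
  unfold ifr at h
  rw [e1, e2, e5] at h
  cases h1 : Nat.beq (a0 (L / 2)) 4
  · rw [h1] at h; exact absurd h Bool.false_ne_true
  rw [h1, br_t] at h
  cases h2 : Nat.ble 4094 (a1 (L / 2))
  · rw [h2] at h; exact absurd h Bool.false_ne_true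
  rw [h2, br_t, lt_iff] at h
  rw [Nat.beq_eq] at h1
  rw [Nat.ble_eq] at h2
  have ha : a1 (L / 2) < 4096 := by unfold a1; omega
  have hp : fpl L = 96 + (16 * (4095 - a1 (L / 2)) + (2 * a4 (L / 2) + L % 2)) := by
    unfold fpl
    rw [e0, e2, e5]
    rfl
  have hx : ∀ n, Nat.xor (2 * n) 1 = 2 * n + 1 ∧ Nat.xor (2 * n + 1) 1 = 2 * n := fun n => by
    constructor
    · show (2 * n) ^^^ 1 = _
      rw [Nat.xor_one_of_even (even_two_mul n)]
    · show (2 * n + 1) ^^^ 1 = _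
      rw [Nat.xor_one_of_odd (odd_two_mul_add_one n)]
      simp
  have hL : lv M L ↔ (if L % 2 = 0 then M.T (a1 (L / 2)) (a4 (L / 2)) else ¬ M.T (a1 (L / 2)) (a4 (L / 2))) := by
    rw [lv_lvd, h1]
    exact Iff.rfl
  have hNP : NP < NP + 1 + 2 * NW := by omega
  have key : ∀ p < 2, (hl M (pos NP NW 0 NP (96 + (16 * (4095 - a1 (L / 2)) + (2 * a4 (L / 2) + p)))) ↔
      (if p = 0 then M.T (a1 (L / 2)) (a4 (L / 2)) else ¬ M.T (a1 (L / 2)) (a4 (L / 2)))) := by
    intro p hp2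
    rw [hl_pos (by norm_num) hNP (by omega), hq_fa (by omega)]
    have g1 : (96 + (16 * (4095 - a1 (L / 2)) + (2 * a4 (L / 2) + p)) - 96) / 16 = 4095 - a1 (L / 2) := by omega
    have g2 : (96 + (16 * (4095 - a1 (L / 2)) + (2 * a4 (L / 2) + p)) - 96) / 2 % 8 = a4 (L / 2) := by omega
    have g3 : 4095 - (4095 - a1 (L / 2)) = a1 (L / 2) := by omega
    rw [g1, g2, g3]
    have g4 : (96 + (16 * (4095 - a1 (L / 2)) + (2 * a4 (L / 2) + p))) % 2 = 0 ↔ p = 0 := by omega
    rw [if_congr g4 rfl rfl]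
  rw [hp]
  rcases Nat.mod_two_eq_zero_or_one L with h0 | h0
  · have k0 := key 0 (by norm_num)
    have k1 := key 1 (by norm_num)
    rw [h0] at hL ⊢
    rw [if_pos rfl] at hL k0
    rw [if_neg one_ne_zero] at k1
    have e6 : Nat.xor (96 + (16 * (4095 - a1 (L / 2)) + (2 * a4 (L / 2) + 0))) 1 =
        96 + (16 * (4095 - a1 (L / 2)) + (2 * a4 (L / 2) + 1)) := by
      have := (hx (48 + (8 * (4095 - a1 (L / 2)) + a4 (L / 2)))).1
      have g : 2 * (48 + (8 * (4095 - a1 (L / 2)) + a4 (L / 2))) = 96 + (16 * (4095 - a1 (L / 2)) + (2 * a4 (L / 2) + 0)) := by ring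
      rw [g] at this
      rw [this]
      ring
    rw [e6]
    exact ⟨⟨by omega, by omega⟩, k0.trans hL.symm, by rw [k1, hL]⟩
  · have k0 := key 0 (by norm_num)
    have k1 := key 1 (by norm_num)
    rw [h0] at hL ⊢
    rw [if_neg one_ne_zero] at hL k1
    rw [if_pos rfl] at k0
    have e6 : Nat.xor (96 + (16 * (4095 - a1 (L / 2)) + (2 * a4 (L / 2) + 1))) 1 =
        96 + (16 * (4095 - a1 (L / 2)) + (2 * a4 (L / 2) + 0)) := by
      have := (hx (48 + (8 * (4095 - a1 (L / 2)) + a4 (L / 2)))).2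
      have g : 2 * (48 + (8 * (4095 - a1 (L / 2)) + a4 (L / 2))) + 1 = 96 + (16 * (4095 - a1 (L / 2)) + (2 * a4 (L / 2) + 1)) := by ring
      rw [g] at this
      rw [this]
      ring
    rw [e6]
    exact ⟨⟨by omega, by omega⟩, k1.trans hL.symm, by rw [k0, hL, not_not]⟩

theorem cl1_CV {L : ℕ} (h : lv M L) : CV M (cl1 NP NW L) := by
  obtain ⟨e0, e1, e2, e3, e4, e5⟩ := dec_l L
  unfold cl1 lm
  refine CV.br (fun h1 => ⟨_, one_bit _, (fr_spec h1).2.1.2 h⟩) fun _ => ?_
  rw [e0, e1, e2, e3, e4, e5]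
  refine CV.br (fun _ => CV.tru) (fun h1 => ⟨_, one_bit _, (pl_spec (by omega) (by unfold a0; omega) h1).2 ((lv_lvd L).1 h)⟩)

theorem ecl_CV {c : List ℕ} (h : Ho M c) : CV M (ecl NP NW c) := by
  obtain ⟨l, hl, h1⟩ := h
  induction c with
  | nil => exact absurd hl List.not_mem_nil
  | cons y c ih =>
    have e : ecl NP NW (y :: c) = Nat.lor (cl1 NP NW y) (ecl NP NW c) := rfl
    rw [e]
    rcases List.mem_cons.1 hl with h2 | h2
    · rw [h2] at h1
      obtain ⟨n, h3, h4⟩ := cl1_CV (NP := NP) (NW := NW) h1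
      exact ⟨n, lor_l h3, h4⟩
    · obtain ⟨n, h3, h4⟩ := ih h2
      exact ⟨n, lor_r h3, h4⟩

theorem nth_CV {e : List (List ℕ)} (he : ∀ c ∈ e, Ho M c) (i : ℕ) : CV M (nth NP NW e i) := by
  induction e generalizing i with
  | nil =>
    have e0 : nth NP NW [] i = tru NP NW := rfl
    rw [e0]; exact CV.tru
  | cons m e ih =>
    have e0 : nth NP NW (m :: e) i = E.br (Nat.beq i 0) (ecl NP NW m) (nth NP NW e (Nat.sub i 1)) := rfl
    rw [e0]
    exact CV.br (fun _ => ecl_CV (he m List.mem_cons_self)) (fun _ => ih (fun m' h => he m' (List.mem_cons_of_mem _ h)) _)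

theorem one_KD {p : ℕ} (h : ¬ hl M p) : KD M (Nat.shiftLeft 1 p) := fun n hn => by
  have e : n = p := pow_bit (by simpa only [r_sl] using hn)
  rw [e]; exact h

theorem pl_lt {s kd x j k q : ℕ} (hs : s < 2) (hkd : kd < 16) : pl NP NW s kd x j k q < 128 := by
  have hbr : ∀ {b : Bool} {u v : ℕ}, (b = true → u < 128) → (b = false → v < 128) → E.br b u v < 128 := fun {b u v} h1 h2 => by
    cases b
    · exact h2 rfl
    · exact h1 rfl
  unfold pl
  repeat' (with_reducible refine hbr (fun _ => ?_) (fun _ => ?_))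
  all_goals first
    | omega
    | (simp only [r_add, r_mul, r_sub, lt_iff, ltf_iff, Nat.beq_eq] at *; omega)

theorem kl1_KD (H : Tab NP NW nbr TB WN) {L : ℕ} (h : lv M L) : KD M (kl1 NP NW TB WN L) := by
  obtain ⟨e0, e1, e2, e3, e4, e5⟩ := dec_l L
  unfold kl1
  refine KD.br (fun h1 => one_KD fun h2 => (fr_spec h1).2.2.1 h2 h) fun _ => ?_
  refine KD.lor ?_ ?_
  · unfold lm
    rw [e0, e1, e2, e3, e4, e5]
    refine KD.br (fun _ => KD.zero) (fun h1 => one_KD fun h2 => ?_)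
    have hs : Nat.xor (L % 2) 1 < 2 ∧ (Nat.xor (L % 2) 1 = 0 ↔ ¬ L % 2 = 0) := by
      rcases Nat.mod_two_eq_zero_or_one L with h | h <;> rw [h] <;> decide
    have h3 := (pl_spec hs.1 (by unfold a0; omega) h1).1 h2
    have h4 := (lv_lvd L).1 h
    unfold lvd at h3 h4
    by_cases h5 : L % 2 = 0
    · rw [if_pos h5] at h4
      rw [if_neg (fun h6 => hs.2.1 h6 h5)] at h3
      exact h3 h4
    · rw [if_neg h5] at h4
      rw [if_pos (hs.2.2 h5)] at h3
      exact h4 h3
  · unfold lr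
    rw [e0, e1, e2, e3, e4, e5]
    refine KD.br (fun _ => KD.zero) (fun h1 => ?_)
    refine row_KD H ?_ ((pl_spec (by omega) (by unfold a0; omega) h1).2 ((lv_lvd L).1 h))
    exact pl_lt (by omega) (by unfold a0; omega)

theorem ini_KD (H : Tab NP NW nbr TB WN) {e : List (List ℕ)} (he : ∀ c ∈ e, Ho M c) : KD M (ini NP NW TB WN e) := by
  induction e with
  | nil => exact KD.zero
  | cons c e ih =>
    have h1 : KD M (ini NP NW TB WN e) := ih fun c h => he c (List.mem_cons_of_mem _ h)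
    match c, he c List.mem_cons_self with
    | [], _ => exact h1
    | [L], h2 =>
      have e0 : ini NP NW TB WN ([L] :: e) = Nat.lor (kl1 NP NW TB WN L) (ini NP NW TB WN e) := rfl
      rw [e0]
      obtain ⟨l, h3, h4⟩ := h2
      rw [List.mem_singleton.1 h3] at h4
      exact KD.lor (kl1_KD H h4) h1
    | L :: L' :: t, _ => exact h1

/-- one implication backwards for all colours -/
theorem back_KD {D s b l y c : ℕ} (hD : KD M D) (hs : s = 128 * b + l) (hb : b < NP + 1 + 2 * NW) (hl8 : l < 128)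
    (hy : y < NP) (hc : c < 48) (himp : ∀ r < 6, hq M r b l → M.V (c / 12) y (c % 12) r) :
    KD M (Nat.shiftLeft (Nat.land (Nat.shiftRight D (Nat.add (Nat.mul 128 y) c)) (cel NP NW)) s) := by
  intro n hn
  rw [r_sl, r_land, r_sr, Nat.testBit_shiftLeft, Bool.and_eq_true, decide_eq_true_eq, Nat.testBit_and, Bool.and_eq_true,
    cel_bit, Nat.testBit_shiftRight] at hn
  obtain ⟨h7, h8, r, hr, h9⟩ := hn
  have e1 : n = pos NP NW r b l := by rw [pos_eq]; omega
  have e2 : Nat.add (Nat.mul 128 y) c + (n - s) = pos NP NW r y c := by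
    rw [h9, pos_eq]; simp only [r_add, r_mul]; omega
  rw [e2] at h8
  have h10 := hD _ h8
  rw [hl_pos hr (by omega) (by omega), hq_pt hy, pt_V hc] at h10
  rw [e1, hl_pos hr hb hl8]
  exact fun h11 => h10 (himp r hr h11)

theorem gm_KD (H : Tab NP NW nbr TB WN) {D x l : ℕ} (hD : KD M D) : KD M (gm NP NW TB D x l) := by
  have hNP := M.hNW
  have hr2 : Nat.shiftRight l 2 = l / 4 := Nat.shiftRight_eq_div_pow l 2
  unfold gm
  rw [hr2]
  refine KD.br (fun hx => KD.br (fun hl0 => KD.br (fun hy => ?_) (fun _ => KD.zero)) (fun hl0 => KD.br (fun hl1 => ?_)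
    (fun hl1 => KD.br (fun hl2 => ?_) (fun _ => KD.zero)))) (fun _ => KD.zero)
  · rw [lt_iff] at hx hl0 hy
    obtain ⟨a1, a2, a3, a4⟩ := lit_lt hl0
    rcases H.nb (x := x) (by omega) a4 with h5 | ⟨h5, h6, -⟩
    · omega
    obtain ⟨h2, h3, h4⟩ := gc_spec hl0
    refine back_KD (b := NP + 1 + x) (l := l) hD (by rw [wb_eq]; rfl) (by omega) (by omega) hy h2 fun r hr h11 => ?_
    rw [hq_wd hx, wd_W hl0] at h11
    rw [h3, h4]
    have h12 := M.glue (x := x) (t := l / 4) (sd := l / 2 % 2) (io := l % 2) hx a1 a2 a3 (by rw [h6]; exact h5)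
    rw [h11, h6] at h12
    exact h12
  · rw [lt_iff] at hx hl1
    rw [ltf_iff] at hl0
    refine back_KD (b := NP + 1 + NW + x) (l := 36 + (l - 48)) hD ?_ (by omega) (by omega) (by omega) ?_ fun r hr h11 => ?_
    · rw [bb_eq, r_add, r_sub]; omega
    · simp only [r_add, r_mul, r_sub]; omega
    · rw [hq_bt hx, bt36 (by omega) (by omega)] at h11
      have e0 : 36 + (l - 48) - 36 = l - 48 := by omega
      rw [e0] at h11
      have e1 : Nat.add 36 (Nat.mul 2 (Nat.sub l 48)) / 12 = 3 := by simp only [r_add, r_mul, r_sub]; omega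
      have e2 : Nat.add 36 (Nat.mul 2 (Nat.sub l 48)) % 12 = 2 * (l - 48) := by simp only [r_add, r_mul, r_sub]; omega
      rw [e1, e2]
      exact M.ar3 rfl hx (by omega) hr h11
  · rw [lt_iff] at hx hl2
    rw [ltf_iff] at hl0 hl1
    have em : Nat.mod (Nat.add (Nat.mul 2 (Nat.sub l 54)) 2) 12 = (2 * (l - 54) + 2) % 12 := rfl
    rw [em]
    refine back_KD (b := NP + 1 + NW + x) (l := 48 + (l - 54)) hD ?_ (by omega) (by omega) (by omega) ?_ fun r hr h11 => ?_
    · rw [bb_eq, r_add, r_sub]; omega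
    · rw [r_add]; omega
    · rw [hq_bt hx, bt48 (by omega) (by omega)] at h11
      have e0 : 48 + (l - 54) - 48 = l - 54 := by omega
      rw [e0] at h11
      have e1 : Nat.add 12 ((2 * (l - 54) + 2) % 12) / 12 = 1 := by rw [r_add]; omega
      have e2 : Nat.add 12 ((2 * (l - 54) + 2) % 12) % 12 = (2 * (l - 54) + 2) % 12 := by rw [r_add]; omega
      rw [e1, e2]
      have := M.al1 rfl hx (by omega : l - 54 < 6) hr h11
      rw [ad_eq2] at this
      exact this

theorem unit_hl {C D p : ℕ} (hD : KD M D) (hC : CV M C)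
    (h : Nat.beq (Nat.land D C) (Nat.xor C (Nat.shiftLeft 1 p)) = true) : hl M p := by
  rw [Nat.beq_eq] at h
  obtain ⟨n, h1, h2⟩ := hC
  have h3 : D.testBit n = false := by
    cases h4 : D.testBit n
    · rfl
    · exact absurd h2 (hD n h4)
  have h5 := congrArg (fun m => Nat.testBit m n) h
  simp only [r_land, r_xor, r_sl, Nat.testBit_and, Nat.testBit_xor, h1, h3, Bool.false_and] at h5
  cases h6 : (1 <<< p).testBit n
  · rw [h6] at h5; exact absurd h5 (by decide)
  · rw [← pow_bit h6]; exact h2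

theorem confl {C D : ℕ} (hC : CV M C) (h : Nat.beq (Nat.land D C) C = true) : ¬ KD M D := fun hD => by
  rw [Nat.beq_eq] at h
  obtain ⟨n, h1, h2⟩ := hC
  have h5 := congrArg (fun m => Nat.testBit m n) h
  simp only [r_land, Nat.testBit_and, h1, Bool.and_true] at h5
  exact hD n h5 h2

/-- the opposite place in the bits block -/
theorem opp_bt {x l : ℕ} (h1 : l < 60) (h : ¬ bt M q x l) :
    ∃ _ : E.br (lt (Nat.mod l 12) 6) (Nat.add l 6) (Nat.sub l 6) < 108,
      bt M q x (E.br (lt (Nat.mod l 12) 6) (Nat.add l 6) (Nat.sub l 6)) := by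
  have em : Nat.mod l 12 = l % 12 := rfl
  rw [em]
  by_cases h2 : l % 12 < 6
  · have e : lt (l % 12) 6 = true := lt_iff.2 h2
    rw [e, br_t, r_add]
    refine ⟨by omega, ?_⟩
    have hc : l / 12 = 0 ∨ l / 12 = 1 ∨ l / 12 = 2 ∨ l / 12 = 3 ∨ l / 12 = 4 := by omega
    rcases hc with hc | hc | hc | hc | hc
    · rw [bt0 (by omega)] at h
      rw [bt6 (by omega) (by omega)]
      have e : l + 6 - 6 = l := by omega
      rw [e]; exact h
    · rw [bt12 (by omega) (by omega)] at h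
      rw [bt18 (by omega) (by omega)]
      have e : l + 6 - 18 = l - 12 := by omega
      rw [e]; exact h
    · rw [bt24 (by omega) (by omega)] at h
      rw [bt30 (by omega) (by omega)]
      have e : l + 6 - 30 = l - 24 := by omega
      rw [e]; exact h
    · rw [bt36 (by omega) (by omega)] at h
      rw [bt42 (by omega) (by omega)]
      have e : l + 6 - 42 = l - 36 := by omega
      rw [e]; exact h
    · rw [bt48 (by omega) (by omega)] at h
      rw [bt54 (by omega) (by omega)]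
      have e : l + 6 - 54 = l - 48 := by omega
      rw [e]; exact h
  · have e : lt (l % 12) 6 = false := ltf_iff.2 (by omega)
    rw [e, br_f, r_sub]
    refine ⟨by omega, ?_⟩
    have hc : l / 12 = 0 ∨ l / 12 = 1 ∨ l / 12 = 2 ∨ l / 12 = 3 ∨ l / 12 = 4 := by omega
    rcases hc with hc | hc | hc | hc | hc
    · rw [bt6 (by omega) (by omega)] at h
      rw [bt0 (by omega)]
      exact not_not.1 h
    · rw [bt18 (by omega) (by omega)] at h
      rw [bt12 (by omega) (by omega)]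
      have e : l - 6 - 12 = l - 18 := by omega
      rw [e]; exact not_not.1 h
    · rw [bt30 (by omega) (by omega)] at h
      rw [bt24 (by omega) (by omega)]
      have e : l - 6 - 24 = l - 30 := by omega
      rw [e]; exact not_not.1 h
    · rw [bt42 (by omega) (by omega)] at h
      rw [bt36 (by omega) (by omega)]
      have e : l - 6 - 36 = l - 42 := by omega
      rw [e]; exact not_not.1 h
    · rw [bt54 (by omega) (by omega)] at h
      rw [bt48 (by omega) (by omega)]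
      have e : l - 6 - 48 = l - 54 := by omega
      rw [e]; exact not_not.1 h

theorem opr_KD (H : Tab NP NW nbr TB WN) {b l : ℕ} (h8 : l < 128) (h : ¬ hl M (pos NP NW q b l)) :
    KD M (opr NP NW TB WN q b l) := by
  have hNP := M.hNW
  have hq6 : q < 6 := by
    by_contra hq
    refine h ?_
    unfold hl
    rw [if_neg ?_]
    · exact trivial
    · rw [pos_eq]
      have : 6 * SS NP NW ≤ q * SS NP NW := Nat.mul_le_mul_right _ (by omega)
      omega
  unfold opr
  refine KD.br (fun hb => KD.br (fun h1 => KD.br (fun _ => KD.zero) (fun h2 => ?_)) (fun h1 => KD.br (fun _ => KD.zero)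
    (fun h2 => KD.br (fun h3 => ?_) (fun _ => KD.zero)))) (fun hb => KD.br (fun _ => KD.zero) (fun hb1 =>
      KD.br (fun hb2 => KD.br (fun _ => KD.zero) (fun h1 => KD.br (fun h2 => ?_) (fun _ => KD.zero)))
        (fun hb2 => KD.br (fun hb3 => KD.br (fun h1 => ?_) (fun _ => KD.zero)) (fun _ => KD.zero))))
  · rw [lt_iff] at hb h1
    rw [ltf_iff] at h2
    rw [hl_pos hq6 (by omega) h8, hq_pt hb, pt_PV h2 h1] at h
    refine one_KD ?_
    rw [r_sub, hl_pos hq6 (by omega) (by omega), hq_pt hb, pt_V (by omega)]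
    exact fun h3 => h (M.vpv (by omega) hb (by omega) hq6 h3)
  · rw [lt_iff] at hb h3
    rw [ltf_iff] at h1 h2
    have hx : ∀ l', l' < 128 → pt M q b l' → KD M (row NP NW TB WN q b l') := fun l' h4 h5 =>
      row_KD H h4 ((hl_pos hq6 (by omega) h4).2 ((hq_pt hb).symm ▸ h5))
    rw [hl_pos hq6 (by omega) h8, hq_pt hb] at h
    have hc : l = 120 ∨ l = 121 ∨ l = 122 ∨ l = 123 := by omega
    rcases hc with rfl | rfl | rfl | rfl
    · exact hx 121 (by norm_num) (pt_121.2 fun h4 => h (pt_120.2 h4))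
    · exact hx 120 (by norm_num) (pt_120.2 (not_not.1 fun h4 => h (pt_121.2 h4)))
    · exact hx 123 (by norm_num) (pt_123.2 fun h4 => h (pt_122.2 h4))
    · exact hx 122 (by norm_num) (pt_122.2 (not_not.1 fun h4 => h (pt_123.2 h4)))
  · rw [ltf_iff] at hb h1
    rw [lt_iff] at hb2 h2
    simp only [r_succ, r_add] at hb2
    have h3' : b ≠ NP := fun h => by rw [h] at hb1; simp at hb1
    obtain ⟨x, rfl⟩ : ∃ x, b = NP + 1 + x := ⟨b - (NP + 1), by omega⟩
    have hx : x < NW := by omega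
    have e1 : l = 48 + (l - 48) := by omega
    rw [hl_pos hq6 (by omega) h8, hq_wd hx, e1, wd_nW (by omega)] at h
    refine row_KD H (by rw [r_sub]; omega) ?_
    rw [r_sub, hl_pos hq6 (by omega) (by omega), hq_wd hx, wd_W (by omega)]
    exact not_not.1 h
  · rw [ltf_iff] at hb hb2
    rw [lt_iff] at hb3 h1
    simp only [r_succ, r_add, r_mul] at hb2 hb3
    obtain ⟨x, rfl⟩ : ∃ x, b = NP + 1 + NW + x := ⟨b - (NP + 1 + NW), by omega⟩
    have hx : x < NW := by omega
    rw [hl_pos hq6 (by omega) h8, hq_bt hx] at h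
    have h5 : ∀ l', l' < 108 → bt M q x l' → KD M (row NP NW TB WN q (NP + 1 + NW + x) l') := fun l' h4 h5 =>
      row_KD H (by omega) ((hl_pos hq6 (by omega) (by omega)).2 ((hq_bt hx).symm ▸ h5))
    exact (opp_bt (M := M) (q := q) (x := x) h1 h).elim fun h6 h7 => h5 _ h6 h7

theorem br_tt {b x y : Bool} (h : E.br b x y = true) : (b = true ∧ x = true) ∨ (b = false ∧ y = true) := by
  cases b
  · exact Or.inr ⟨rfl, h⟩
  · exact Or.inl ⟨rfl, h⟩

theorem ent127 {x s : ℕ} : ent x 1 127 s < 128 := by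
  rw [ent_eq]
  have : (x >>> (1 * s)) &&& 127 ≤ 127 := Nat.and_le_right
  omega

theorem frc_eq (F : ℕ → ℕ) (n : ℕ) : frc F n = F n := by cases n <;> rfl

theorem run_sound (H : Tab NP NW nbr TB WN) {f4 : Bool} {e : List (List ℕ)}
    (hc : ∀ k x a b c, CV M (cm NP NW TB f4 e k x a b c)) (fuel : ℕ) (cc : List ℕ) (x D : ℕ) (st : List ℕ)
    (h : run NP NW TB WN f4 e fuel cc x D st = true) : ¬ KD M D ∧ ∀ D' ∈ st, ¬ KD M D' := by
  induction fuel generalizing cc x D st with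
  | zero => exact absurd h Bool.false_ne_true
  | succ n ih =>
    rcases br_tt h with ⟨-, h⟩ | ⟨-, h⟩
    · match cc, h with
      | [], h => exact absurd h Bool.false_ne_true
      | y :: ys, h => exact ih ys y D st h
    rcases br_tt h with ⟨-, h⟩ | ⟨-, h⟩
    · rcases br_tt h with ⟨h1, h⟩ | ⟨-, h⟩
      · rw [frc_eq, frc_eq] at h1
        rw [frc_eq] at h
        obtain ⟨h2, h3⟩ := ih _ _ _ _ h
        exact ⟨fun hD => h2 (KD.lor hD (row_KD H ent127 (unit_hl hD (hc _ _ _ _ _) h1))), h3⟩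
      · exact absurd h Bool.false_ne_true
    rcases br_tt h with ⟨-, h⟩ | ⟨-, h⟩
    · rw [frc_eq, frc_eq] at h
      obtain ⟨h2, h3⟩ := ih _ _ _ _ h
      refine ⟨fun hD => ?_, fun D' h4 => h3 D' (List.mem_cons_of_mem _ h4)⟩
      by_cases hp : hl M (pos NP NW (ent (Nat.land (Nat.shiftRight x 39) 262143) 1 7 0)
        (ent (Nat.land (Nat.shiftRight x 39) 262143) 1 255 3) (ent (Nat.land (Nat.shiftRight x 39) 262143) 1 127 11))
      · exact h2 (KD.lor hD (row_KD H ent127 hp))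
      · exact h3 _ List.mem_cons_self (KD.lor hD (KD.lor (one_KD hp) (opr_KD H ent127 hp)))
    rcases br_tt h with ⟨-, h⟩ | ⟨-, h⟩
    · rcases br_tt h with ⟨h1, h⟩ | ⟨-, h⟩
      · rw [frc_eq] at h1
        refine ⟨confl (hc _ _ _ _ _) h1, ?_⟩
        match st, h with
        | [], _ => exact fun D' h4 => absurd h4 List.not_mem_nil
        | y :: ys, h =>
          obtain ⟨h2, h3⟩ := ih _ _ _ _ h
          exact fun D' h4 => (List.mem_cons.1 h4).elim (fun h5 => h5 ▸ h2) (h3 D')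
      · exact absurd h Bool.false_ne_true
    · obtain ⟨h2, h3⟩ := ih _ _ _ _ h
      exact ⟨fun hD => h2 (KD.lor hD (gm_KD H hD)), h3⟩

/-- **A certificate refutes all models in which the external clauses hold.** -/
theorem echk_sound (H : Tab NP NW nbr TB WN) {f4 : Bool}
    (h4 : f4 = true → ∀ x < NP, ∀ a < 6, ∃ r < 6, r ≠ a ∧ ¬ M.T x r)
    {e : List (List ℕ)} {fuel : ℕ} {cc : List ℕ} (h : echk NP NW TB WN f4 e fuel cc = true) (he : ∀ c ∈ e, Ho M c) :
    False :=
  (run_sound H (fun k x a b c => cm_CV H h4 (nth_CV he) k x a b c) fuel cc 0 _ [] h).1 (ini_KD H he)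

end Vale.Agent.P032.H286.E
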