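/-!
# P032: the tables of the engine for the 73 points (order of H820: 0, 1 + s, 36 mixed points, 24 pure points)
-/

namespace Vale.Agent.P032.H286.E

/-- the neighbours, 14 bits for one entry -/
def TBe : Nat :=
  0x920248092024808c0248018024806c024809202480920248092024809202200920058092019809202480920248092024808a02480140248018024809002480920248092024809202480840248014024808c024809202480920248092021809200480920058092023809202480920248092024809202000920048092022008a024809202480920248082024801002480140248084024809202480920248092024807c0248010024809202180920248092024809201f809200380920048092020009202480920248092024809201e00920038010024808202480920248092024807a024800c024800c024807c02480920248092024809202480740248092003809201f80920248092024809201d80920028092002809201e009202480920248092024809201c0008024800c024807a024809202480920248072024806a0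248008024807402480920248092024809202480920018092002809201d80920248092024809201b80920190092001809201c0092024809202480920248092024809002480180248004024806802480920248068024800402480080248072024809202480920248092024806c0248004024806a02480920248092024809202480920238092005809200080920188092024809201880920008092001809201b8092024809202480920248092019809200080920190092024809202480920248092024805e015001600600560090092024809202480920248092014805c00500160088060024805e024809202480920140092004005a00800160248016024805c024809201380920030092007805802480560248016024805a0130092002009200700920248092024806002480160128058001009200680920248092024809202480520248012012004a00600920180092024809202480920248050011801200500540178052024809202480920248092011004e004001201700120248050024809202480920108092003004c016804a0248012024804e0248092010009200200920160092024805402480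12024804c00f80920010092015809201500920248046024800e024803e00f00920060092014809202480920248044024800e00e80480050046014009202480920248092024804200e000e004000e013804402480920248092024809200d8040003003e013000e02480420248092024809200d009200200920128048024800e0248040024809200c809200100920060092012003a024800a0248032024809200c0092005009201180920248038024800a024803c00b803a0040092011009202480920248036024800a00b000a0030038010809202480920248092024803400a8032002000a010003602480920248092024809200a0092001003c00f800a02480340248092024809200980920090092006002e00f00060248026024809202480920088092005009200e802c02480060248030024802e0080092004009200e0092024802a02480060248006007802c003009200d80920248092024802802480260070006002002a00d00920248092024809202480920068030001000600c802802480920248092024809202480920180022006000200c001a0248092024809202480920178092005002000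b80020248024024802202480920170092004009200b001e0248002024800202480200168092003009200a8092024801c024801a0248002016001e002009200a00920248092024809202480240158002001001c009809202480920248090018008c0150014012000000f000400c006c0090060023805e022005c004805a00000580008056019808c017808a0148084011801000e800000b8018008805402200520218050020004e003804c000004a005801401700840140082011007c00e000c00b000000800480048046020004401f804201e0040002803e00000000168010013807c010807a00d807400a8008007803c000003a003803801e003601d803401c003200180040160000013000c010007400d007200a006a0070030000802e000002c002802a01c002801b8026019006c0158018012800000f800800c806a0098068006802401980220058020000001e001801c019001a018801800580140048010003800c0028008001800400080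

/-- the word neighbours for 13 word points, 1664 bits for one entry -/
def WN13 : Nat :=
  Nat.lor (Nat.lor (Nat.shiftLeft 3 128) (Nat.lor (Nat.shiftLeft 3 256) (Nat.lor (Nat.shiftLeft 3 384) (Nat.lor (Nat.shiftLeft 3 512) (Nat.lor (Nat.shiftLeft 3 640) (Nat.lor (Nat.shiftLeft 3 768) (Nat.lor (Nat.shiftLeft 3 896) (Nat.lor (Nat.shiftLeft 3 1024) (Nat.lor (Nat.shiftLeft 3 1152) (Nat.lor (Nat.shiftLeft 3 1280) (Nat.lor (Nat.shiftLeft 3 1408) ((Nat.shiftLeft 3 1536))))))))))))) (Nat.shiftLeft (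
  Nat.lor (Nat.lor (Nat.shiftLeft 3 0) (Nat.lor (Nat.shiftLeft 3 384) ((Nat.shiftLeft 3 1408)))) (Nat.shiftLeft (
  Nat.lor (Nat.lor (Nat.shiftLeft 3 0) (Nat.lor (Nat.shiftLeft 3 512) ((Nat.shiftLeft 3 1536)))) (Nat.shiftLeft (
  Nat.lor (Nat.lor (Nat.shiftLeft 3 0) (Nat.lor (Nat.shiftLeft 3 128) ((Nat.shiftLeft 3 640)))) (Nat.shiftLeft (
  Nat.lor (Nat.lor (Nat.shiftLeft 3 0) (Nat.lor (Nat.shiftLeft 3 256) ((Nat.shiftLeft 3 768)))) (Nat.shiftLeft (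
  Nat.lor (Nat.lor (Nat.shiftLeft 3 0) (Nat.lor (Nat.shiftLeft 3 384) ((Nat.shiftLeft 3 896)))) (Nat.shiftLeft (
  Nat.lor (Nat.lor (Nat.shiftLeft 3 0) (Nat.lor (Nat.shiftLeft 3 512) ((Nat.shiftLeft 3 1024)))) (Nat.shiftLeft (
  Nat.lor (Nat.lor (Nat.shiftLeft 3 0) (Nat.lor (Nat.shiftLeft 3 640) ((Nat.shiftLeft 3 1152)))) (Nat.shiftLeft (
  Nat.lor (Nat.lor (Nat.shiftLeft 3 0) (Nat.lor (Nat.shiftLeft 3 768) ((Nat.shiftLeft 3 1280)))) (Nat.shiftLeft (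
  Nat.lor (Nat.lor (Nat.shiftLeft 3 0) (Nat.lor (Nat.shiftLeft 3 896) ((Nat.shiftLeft 3 1408)))) (Nat.shiftLeft (
  Nat.lor (Nat.lor (Nat.shiftLeft 3 0) (Nat.lor (Nat.shiftLeft 3 1024) ((Nat.shiftLeft 3 1536)))) (Nat.shiftLeft (
  Nat.lor (Nat.lor (Nat.shiftLeft 3 0) (Nat.lor (Nat.shiftLeft 3 128) ((Nat.shiftLeft 3 1152)))) (Nat.shiftLeft (
  Nat.lor (Nat.lor (Nat.shiftLeft 3 0) (Nat.lor (Nat.shiftLeft 3 256) ((Nat.shiftLeft 3 1280)))) (Nat.shiftLeft (0) 1664)) 1664)) 1664)) 1664)) 1664)) 1664)) 1664)) 1664)) 1664)) 1664)) 1664)) 1664)) 1664)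

/-- the word neighbours for 49 word points, 6272 bits for one entry -/
def WN49 : Nat :=
  Nat.lor (Nat.lor (Nat.shiftLeft 3 128) (Nat.lor (Nat.shiftLeft 3 256) (Nat.lor (Nat.shiftLeft 3 384) (Nat.lor (Nat.shiftLeft 3 512) (Nat.lor (Nat.shiftLeft 3 640) (Nat.lor (Nat.shiftLeft 3 768) (Nat.lor (Nat.shiftLeft 3 896) (Nat.lor (Nat.shiftLeft 3 1024) (Nat.lor (Nat.shiftLeft 3 1152) (Nat.lor (Nat.shiftLeft 3 1280) (Nat.lor (Nat.shiftLeft 3 1408) ((Nat.shiftLeft 3 1536))))))))))))) (Nat.shiftLeft (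
  Nat.lor (Nat.lor (Nat.shiftLeft 3 0) (Nat.lor (Nat.shiftLeft 3 384) (Nat.lor (Nat.shiftLeft 3 1408) (Nat.lor (Nat.shiftLeft 3 1664) (Nat.lor (Nat.shiftLeft 3 1792) (Nat.lor (Nat.shiftLeft 3 1920) (Nat.lor (Nat.shiftLeft 3 2048) (Nat.lor (Nat.shiftLeft 3 2176) ((Nat.shiftLeft 3 2304)))))))))) (Nat.shiftLeft (
  Nat.lor (Nat.lor (Nat.shiftLeft 3 0) (Nat.lor (Nat.shiftLeft 3 512) (Nat.lor (Nat.shiftLeft 3 1536) (Nat.lor (Nat.shiftLeft 3 1664) (Nat.lor (Nat.shiftLeft 3 2432) (Nat.lor (Nat.shiftLeft 3 3200) (Nat.lor (Nat.shiftLeft 3 3968) (Nat.lor (Nat.shiftLeft 3 4736) ((Nat.shiftLeft 3 5504)))))))))) (Nat.shiftLeft (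
  Nat.lor (Nat.lor (Nat.shiftLeft 3 0) (Nat.lor (Nat.shiftLeft 3 128) (Nat.lor (Nat.shiftLeft 3 640) (Nat.lor (Nat.shiftLeft 3 2432) (Nat.lor (Nat.shiftLeft 3 2560) (Nat.lor (Nat.shiftLeft 3 2688) (Nat.lor (Nat.shiftLeft 3 2816) (Nat.lor (Nat.shiftLeft 3 2944) ((Nat.shiftLeft 3 3072)))))))))) (Nat.shiftLeft (
  Nat.lor (Nat.lor (Nat.shiftLeft 3 0) (Nat.lor (Nat.shiftLeft 3 256) (Nat.lor (Nat.shiftLeft 3 768) (Nat.lor (Nat.shiftLeft 3 1792) (Nat.lor (Nat.shiftLeft 3 2560) (Nat.lor (Nat.shiftLeft 3 3328) (Nat.lor (Nat.shiftLeft 3 4096) (Nat.lor (Nat.shiftLeft 3 4864) ((Nat.shiftLeft 3 5632)))))))))) (Nat.shiftLeft (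
  Nat.lor (Nat.lor (Nat.shiftLeft 3 0) (Nat.lor (Nat.shiftLeft 3 384) (Nat.lor (Nat.shiftLeft 3 896) (Nat.lor (Nat.shiftLeft 3 3200) (Nat.lor (Nat.shiftLeft 3 3328) (Nat.lor (Nat.shiftLeft 3 3456) (Nat.lor (Nat.shiftLeft 3 3584) (Nat.lor (Nat.shiftLeft 3 3712) ((Nat.shiftLeft 3 3840)))))))))) (Nat.shiftLeft (
  Nat.lor (Nat.lor (Nat.shiftLeft 3 0) (Nat.lor (Nat.shiftLeft 3 512) (Nat.lor (Nat.shiftLeft 3 1024) (Nat.lor (Nat.shiftLeft 3 1920) (Nat.lor (Nat.shiftLeft 3 2688) (Nat.lor (Nat.shiftLeft 3 3456) (Nat.lor (Nat.shiftLeft 3 4224) (Nat.lor (Nat.shiftLeft 3 4992) ((Nat.shiftLeft 3 5760)))))))))) (Nat.shiftLeft (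
  Nat.lor (Nat.lor (Nat.shiftLeft 3 0) (Nat.lor (Nat.shiftLeft 3 640) (Nat.lor (Nat.shiftLeft 3 1152) (Nat.lor (Nat.shiftLeft 3 3968) (Nat.lor (Nat.shiftLeft 3 4096) (Nat.lor (Nat.shiftLeft 3 4224) (Nat.lor (Nat.shiftLeft 3 4352) (Nat.lor (Nat.shiftLeft 3 4480) ((Nat.shiftLeft 3 4608)))))))))) (Nat.shiftLeft (
  Nat.lor (Nat.lor (Nat.shiftLeft 3 0) (Nat.lor (Nat.shiftLeft 3 768) (Nat.lor (Nat.shiftLeft 3 1280) (Nat.lor (Nat.shiftLeft 3 2048) (Nat.lor (Nat.shiftLeft 3 2816) (Nat.lor (Nat.shiftLeft 3 3584) (Nat.lor (Nat.shiftLeft 3 4352) (Nat.lor (Nat.shiftLeft 3 5120) ((Nat.shiftLeft 3 5888)))))))))) (Nat.shiftLeft (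
  Nat.lor (Nat.lor (Nat.shiftLeft 3 0) (Nat.lor (Nat.shiftLeft 3 896) (Nat.lor (Nat.shiftLeft 3 1408) (Nat.lor (Nat.shiftLeft 3 4736) (Nat.lor (Nat.shiftLeft 3 4864) (Nat.lor (Nat.shiftLeft 3 4992) (Nat.lor (Nat.shiftLeft 3 5120) (Nat.lor (Nat.shiftLeft 3 5248) ((Nat.shiftLeft 3 5376)))))))))) (Nat.shiftLeft (
  Nat.lor (Nat.lor (Nat.shiftLeft 3 0) (Nat.lor (Nat.shiftLeft 3 1024) (Nat.lor (Nat.shiftLeft 3 1536) (Nat.lor (Nat.shiftLeft 3 2176) (Nat.lor (Nat.shiftLeft 3 2944) (Nat.lor (Nat.shiftLeft 3 3712) (Nat.lor (Nat.shiftLeft 3 4480) (Nat.lor (Nat.shiftLeft 3 5248) ((Nat.shiftLeft 3 6016)))))))))) (Nat.shiftLeft (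
  Nat.lor (Nat.lor (Nat.shiftLeft 3 0) (Nat.lor (Nat.shiftLeft 3 128) (Nat.lor (Nat.shiftLeft 3 1152) (Nat.lor (Nat.shiftLeft 3 5504) (Nat.lor (Nat.shiftLeft 3 5632) (Nat.lor (Nat.shiftLeft 3 5760) (Nat.lor (Nat.shiftLeft 3 5888) (Nat.lor (Nat.shiftLeft 3 6016) ((Nat.shiftLeft 3 6144)))))))))) (Nat.shiftLeft (
  Nat.lor (Nat.lor (Nat.shiftLeft 3 0) (Nat.lor (Nat.shiftLeft 3 256) (Nat.lor (Nat.shiftLeft 3 1280) (Nat.lor (Nat.shiftLeft 3 2304) (Nat.lor (Nat.shiftLeft 3 3072) (Nat.lor (Nat.shiftLeft 3 3840) (Nat.lor (Nat.shiftLeft 3 4608) (Nat.lor (Nat.shiftLeft 3 5376) ((Nat.shiftLeft 3 6144)))))))))) (Nat.shiftLeft (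
  Nat.lor (Nat.lor (Nat.shiftLeft 3 128) (Nat.lor (Nat.shiftLeft 3 256) (Nat.lor (Nat.shiftLeft 3 1792) (Nat.lor (Nat.shiftLeft 3 2304) (Nat.lor (Nat.shiftLeft 3 2432) ((Nat.shiftLeft 3 5504))))))) (Nat.shiftLeft (
  Nat.lor (Nat.lor (Nat.shiftLeft 3 128) (Nat.lor (Nat.shiftLeft 3 512) (Nat.lor (Nat.shiftLeft 3 1664) (Nat.lor (Nat.shiftLeft 3 1920) (Nat.lor (Nat.shiftLeft 3 2560) ((Nat.shiftLeft 3 5632))))))) (Nat.shiftLeft (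
  Nat.lor (Nat.lor (Nat.shiftLeft 3 128) (Nat.lor (Nat.shiftLeft 3 768) (Nat.lor (Nat.shiftLeft 3 1792) (Nat.lor (Nat.shiftLeft 3 2048) (Nat.lor (Nat.shiftLeft 3 2688) ((Nat.shiftLeft 3 5760))))))) (Nat.shiftLeft (
  Nat.lor (Nat.lor (Nat.shiftLeft 3 128) (Nat.lor (Nat.shiftLeft 3 1024) (Nat.lor (Nat.shiftLeft 3 1920) (Nat.lor (Nat.shiftLeft 3 2176) (Nat.lor (Nat.shiftLeft 3 2816) ((Nat.shiftLeft 3 5888))))))) (Nat.shiftLeft (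
  Nat.lor (Nat.lor (Nat.shiftLeft 3 128) (Nat.lor (Nat.shiftLeft 3 1280) (Nat.lor (Nat.shiftLeft 3 2048) (Nat.lor (Nat.shiftLeft 3 2304) (Nat.lor (Nat.shiftLeft 3 2944) ((Nat.shiftLeft 3 6016))))))) (Nat.shiftLeft (
  Nat.lor (Nat.lor (Nat.shiftLeft 3 128) (Nat.lor (Nat.shiftLeft 3 1536) (Nat.lor (Nat.shiftLeft 3 1664) (Nat.lor (Nat.shiftLeft 3 2176) (Nat.lor (Nat.shiftLeft 3 3072) ((Nat.shiftLeft 3 6144))))))) (Nat.shiftLeft (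
  Nat.lor (Nat.lor (Nat.shiftLeft 3 256) (Nat.lor (Nat.shiftLeft 3 384) (Nat.lor (Nat.shiftLeft 3 1664) (Nat.lor (Nat.shiftLeft 3 2560) (Nat.lor (Nat.shiftLeft 3 3072) ((Nat.shiftLeft 3 3200))))))) (Nat.shiftLeft (
  Nat.lor (Nat.lor (Nat.shiftLeft 3 384) (Nat.lor (Nat.shiftLeft 3 512) (Nat.lor (Nat.shiftLeft 3 1792) (Nat.lor (Nat.shiftLeft 3 2432) (Nat.lor (Nat.shiftLeft 3 2688) ((Nat.shiftLeft 3 3328))))))) (Nat.shiftLeft (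
  Nat.lor (Nat.lor (Nat.shiftLeft 3 384) (Nat.lor (Nat.shiftLeft 3 768) (Nat.lor (Nat.shiftLeft 3 1920) (Nat.lor (Nat.shiftLeft 3 2560) (Nat.lor (Nat.shiftLeft 3 2816) ((Nat.shiftLeft 3 3456))))))) (Nat.shiftLeft (
  Nat.lor (Nat.lor (Nat.shiftLeft 3 384) (Nat.lor (Nat.shiftLeft 3 1024) (Nat.lor (Nat.shiftLeft 3 2048) (Nat.lor (Nat.shiftLeft 3 2688) (Nat.lor (Nat.shiftLeft 3 2944) ((Nat.shiftLeft 3 3584))))))) (Nat.shiftLeft (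
  Nat.lor (Nat.lor (Nat.shiftLeft 3 384) (Nat.lor (Nat.shiftLeft 3 1280) (Nat.lor (Nat.shiftLeft 3 2176) (Nat.lor (Nat.shiftLeft 3 2816) (Nat.lor (Nat.shiftLeft 3 3072) ((Nat.shiftLeft 3 3712))))))) (Nat.shiftLeft (
  Nat.lor (Nat.lor (Nat.shiftLeft 3 384) (Nat.lor (Nat.shiftLeft 3 1536) (Nat.lor (Nat.shiftLeft 3 2304) (Nat.lor (Nat.shiftLeft 3 2432) (Nat.lor (Nat.shiftLeft 3 2944) ((Nat.shiftLeft 3 3840))))))) (Nat.shiftLeft (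
  Nat.lor (Nat.lor (Nat.shiftLeft 3 256) (Nat.lor (Nat.shiftLeft 3 640) (Nat.lor (Nat.shiftLeft 3 2432) (Nat.lor (Nat.shiftLeft 3 3328) (Nat.lor (Nat.shiftLeft 3 3840) ((Nat.shiftLeft 3 3968))))))) (Nat.shiftLeft (
  Nat.lor (Nat.lor (Nat.shiftLeft 3 512) (Nat.lor (Nat.shiftLeft 3 640) (Nat.lor (Nat.shiftLeft 3 2560) (Nat.lor (Nat.shiftLeft 3 3200) (Nat.lor (Nat.shiftLeft 3 3456) ((Nat.shiftLeft 3 4096))))))) (Nat.shiftLeft (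
  Nat.lor (Nat.lor (Nat.shiftLeft 3 640) (Nat.lor (Nat.shiftLeft 3 768) (Nat.lor (Nat.shiftLeft 3 2688) (Nat.lor (Nat.shiftLeft 3 3328) (Nat.lor (Nat.shiftLeft 3 3584) ((Nat.shiftLeft 3 4224))))))) (Nat.shiftLeft (
  Nat.lor (Nat.lor (Nat.shiftLeft 3 640) (Nat.lor (Nat.shiftLeft 3 1024) (Nat.lor (Nat.shiftLeft 3 2816) (Nat.lor (Nat.shiftLeft 3 3456) (Nat.lor (Nat.shiftLeft 3 3712) ((Nat.shiftLeft 3 4352))))))) (Nat.shiftLeft (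
  Nat.lor (Nat.lor (Nat.shiftLeft 3 640) (Nat.lor (Nat.shiftLeft 3 1280) (Nat.lor (Nat.shiftLeft 3 2944) (Nat.lor (Nat.shiftLeft 3 3584) (Nat.lor (Nat.shiftLeft 3 3840) ((Nat.shiftLeft 3 4480))))))) (Nat.shiftLeft (
  Nat.lor (Nat.lor (Nat.shiftLeft 3 640) (Nat.lor (Nat.shiftLeft 3 1536) (Nat.lor (Nat.shiftLeft 3 3072) (Nat.lor (Nat.shiftLeft 3 3200) (Nat.lor (Nat.shiftLeft 3 3712) ((Nat.shiftLeft 3 4608))))))) (Nat.shiftLeft (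
  Nat.lor (Nat.lor (Nat.shiftLeft 3 256) (Nat.lor (Nat.shiftLeft 3 896) (Nat.lor (Nat.shiftLeft 3 3200) (Nat.lor (Nat.shiftLeft 3 4096) (Nat.lor (Nat.shiftLeft 3 4608) ((Nat.shiftLeft 3 4736))))))) (Nat.shiftLeft (
  Nat.lor (Nat.lor (Nat.shiftLeft 3 512) (Nat.lor (Nat.shiftLeft 3 896) (Nat.lor (Nat.shiftLeft 3 3328) (Nat.lor (Nat.shiftLeft 3 3968) (Nat.lor (Nat.shiftLeft 3 4224) ((Nat.shiftLeft 3 4864))))))) (Nat.shiftLeft (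
  Nat.lor (Nat.lor (Nat.shiftLeft 3 768) (Nat.lor (Nat.shiftLeft 3 896) (Nat.lor (Nat.shiftLeft 3 3456) (Nat.lor (Nat.shiftLeft 3 4096) (Nat.lor (Nat.shiftLeft 3 4352) ((Nat.shiftLeft 3 4992))))))) (Nat.shiftLeft (
  Nat.lor (Nat.lor (Nat.shiftLeft 3 896) (Nat.lor (Nat.shiftLeft 3 1024) (Nat.lor (Nat.shiftLeft 3 3584) (Nat.lor (Nat.shiftLeft 3 4224) (Nat.lor (Nat.shiftLeft 3 4480) ((Nat.shiftLeft 3 5120))))))) (Nat.shiftLeft (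
  Nat.lor (Nat.lor (Nat.shiftLeft 3 896) (Nat.lor (Nat.shiftLeft 3 1280) (Nat.lor (Nat.shiftLeft 3 3712) (Nat.lor (Nat.shiftLeft 3 4352) (Nat.lor (Nat.shiftLeft 3 4608) ((Nat.shiftLeft 3 5248))))))) (Nat.shiftLeft (
  Nat.lor (Nat.lor (Nat.shiftLeft 3 896) (Nat.lor (Nat.shiftLeft 3 1536) (Nat.lor (Nat.shiftLeft 3 3840) (Nat.lor (Nat.shiftLeft 3 3968) (Nat.lor (Nat.shiftLeft 3 4480) ((Nat.shiftLeft 3 5376))))))) (Nat.shiftLeft (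
  Nat.lor (Nat.lor (Nat.shiftLeft 3 256) (Nat.lor (Nat.shiftLeft 3 1152) (Nat.lor (Nat.shiftLeft 3 3968) (Nat.lor (Nat.shiftLeft 3 4864) (Nat.lor (Nat.shiftLeft 3 5376) ((Nat.shiftLeft 3 5504))))))) (Nat.shiftLeft (
  Nat.lor (Nat.lor (Nat.shiftLeft 3 512) (Nat.lor (Nat.shiftLeft 3 1152) (Nat.lor (Nat.shiftLeft 3 4096) (Nat.lor (Nat.shiftLeft 3 4736) (Nat.lor (Nat.shiftLeft 3 4992) ((Nat.shiftLeft 3 5632))))))) (Nat.shiftLeft (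
  Nat.lor (Nat.lor (Nat.shiftLeft 3 768) (Nat.lor (Nat.shiftLeft 3 1152) (Nat.lor (Nat.shiftLeft 3 4224) (Nat.lor (Nat.shiftLeft 3 4864) (Nat.lor (Nat.shiftLeft 3 5120) ((Nat.shiftLeft 3 5760))))))) (Nat.shiftLeft (
  Nat.lor (Nat.lor (Nat.shiftLeft 3 1024) (Nat.lor (Nat.shiftLeft 3 1152) (Nat.lor (Nat.shiftLeft 3 4352) (Nat.lor (Nat.shiftLeft 3 4992) (Nat.lor (Nat.shiftLeft 3 5248) ((Nat.shiftLeft 3 5888))))))) (Nat.shiftLeft (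
  Nat.lor (Nat.lor (Nat.shiftLeft 3 1152) (Nat.lor (Nat.shiftLeft 3 1280) (Nat.lor (Nat.shiftLeft 3 4480) (Nat.lor (Nat.shiftLeft 3 5120) (Nat.lor (Nat.shiftLeft 3 5376) ((Nat.shiftLeft 3 6016))))))) (Nat.shiftLeft (
  Nat.lor (Nat.lor (Nat.shiftLeft 3 1152) (Nat.lor (Nat.shiftLeft 3 1536) (Nat.lor (Nat.shiftLeft 3 4608) (Nat.lor (Nat.shiftLeft 3 4736) (Nat.lor (Nat.shiftLeft 3 5248) ((Nat.shiftLeft 3 6144))))))) (Nat.shiftLeft (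
  Nat.lor (Nat.lor (Nat.shiftLeft 3 256) (Nat.lor (Nat.shiftLeft 3 1408) (Nat.lor (Nat.shiftLeft 3 1664) (Nat.lor (Nat.shiftLeft 3 4736) (Nat.lor (Nat.shiftLeft 3 5632) ((Nat.shiftLeft 3 6144))))))) (Nat.shiftLeft (
  Nat.lor (Nat.lor (Nat.shiftLeft 3 512) (Nat.lor (Nat.shiftLeft 3 1408) (Nat.lor (Nat.shiftLeft 3 1792) (Nat.lor (Nat.shiftLeft 3 4864) (Nat.lor (Nat.shiftLeft 3 5504) ((Nat.shiftLeft 3 5760))))))) (Nat.shiftLeft (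
  Nat.lor (Nat.lor (Nat.shiftLeft 3 768) (Nat.lor (Nat.shiftLeft 3 1408) (Nat.lor (Nat.shiftLeft 3 1920) (Nat.lor (Nat.shiftLeft 3 4992) (Nat.lor (Nat.shiftLeft 3 5632) ((Nat.shiftLeft 3 5888))))))) (Nat.shiftLeft (
  Nat.lor (Nat.lor (Nat.shiftLeft 3 1024) (Nat.lor (Nat.shiftLeft 3 1408) (Nat.lor (Nat.shiftLeft 3 2048) (Nat.lor (Nat.shiftLeft 3 5120) (Nat.lor (Nat.shiftLeft 3 5760) ((Nat.shiftLeft 3 6016))))))) (Nat.shiftLeft (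
  Nat.lor (Nat.lor (Nat.shiftLeft 3 1280) (Nat.lor (Nat.shiftLeft 3 1408) (Nat.lor (Nat.shiftLeft 3 2176) (Nat.lor (Nat.shiftLeft 3 5248) (Nat.lor (Nat.shiftLeft 3 5888) ((Nat.shiftLeft 3 6144))))))) (Nat.shiftLeft (
  Nat.lor (Nat.lor (Nat.shiftLeft 3 1408) (Nat.lor (Nat.shiftLeft 3 1536) (Nat.lor (Nat.shiftLeft 3 2304) (Nat.lor (Nat.shiftLeft 3 5376) (Nat.lor (Nat.shiftLeft 3 5504) ((Nat.shiftLeft 3 6016))))))) (Nat.shiftLeft (0) 6272)) 6272)) 6272)) 6272)) 6272)) 6272)) 6272)) 6272)) 6272)) 6272)) 6272)) 6272)) 6272)) 6272)) 6272)) 6272)) 6272)) 6272)) 6272)) 6272)) 6272)) 6272)) 6272)) 6272)) 6272)) 6272)) 6272)) 6272)) 6272)) 6272)) 6272)) 6272)) 6272)) 6272)) 6272)) 6272)) 6272)) 6272)) 6272)) 6272)) 6272)) 6272)) 6272)) 6272)) 6272)) 6272)) 6272)) 6272)) 6272)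

/-- the word neighbours for 73 word points, 9344 bits for one entry -/
def WN73 : Nat :=
  Nat.lor (Nat.lor (Nat.shiftLeft 3 128) (Nat.lor (Nat.shiftLeft 3 256) (Nat.lor (Nat.shiftLeft 3 384) (Nat.lor (Nat.shiftLeft 3 512) (Nat.lor (Nat.shiftLeft 3 640) (Nat.lor (Nat.shiftLeft 3 768) (Nat.lor (Nat.shiftLeft 3 896) (Nat.lor (Nat.shiftLeft 3 1024) (Nat.lor (Nat.shiftLeft 3 1152) (Nat.lor (Nat.shiftLeft 3 1280) (Nat.lor (Nat.shiftLeft 3 1408) ((Nat.shiftLeft 3 1536))))))))))))) (Nat.shiftLeft (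
  Nat.lor (Nat.lor (Nat.shiftLeft 3 0) (Nat.lor (Nat.shiftLeft 3 384) (Nat.lor (Nat.shiftLeft 3 1408) (Nat.lor (Nat.shiftLeft 3 1664) (Nat.lor (Nat.shiftLeft 3 1792) (Nat.lor (Nat.shiftLeft 3 1920) (Nat.lor (Nat.shiftLeft 3 2048) (Nat.lor (Nat.shiftLeft 3 2176) (Nat.lor (Nat.shiftLeft 3 2304) (Nat.lor (Nat.shiftLeft 3 6272) (Nat.lor (Nat.shiftLeft 3 6400) ((Nat.shiftLeft 3 6528))))))))))))) (Nat.shiftLeft (
  Nat.lor (Nat.lor (Nat.shiftLeft 3 0) (Nat.lor (Nat.shiftLeft 3 512) (Nat.lor (Nat.shiftLeft 3 1536) (Nat.lor (Nat.shiftLeft 3 1664) (Nat.lor (Nat.shiftLeft 3 2432) (Nat.lor (Nat.shiftLeft 3 3200) (Nat.lor (Nat.shiftLeft 3 3968) (Nat.lor (Nat.shiftLeft 3 4736) (Nat.lor (Nat.shiftLeft 3 5504) (Nat.lor (Nat.shiftLeft 3 6656) (Nat.lor (Nat.shiftLeft 3 6784) ((Nat.shiftLeft 3 6912))))))))))))) (Nat.shiftLeft (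
  Nat.lor (Nat.lor (Nat.shiftLeft 3 0) (Nat.lor (Nat.shiftLeft 3 128) (Nat.lor (Nat.shiftLeft 3 640) (Nat.lor (Nat.shiftLeft 3 2432) (Nat.lor (Nat.shiftLeft 3 2560) (Nat.lor (Nat.shiftLeft 3 2688) (Nat.lor (Nat.shiftLeft 3 2816) (Nat.lor (Nat.shiftLeft 3 2944) (Nat.lor (Nat.shiftLeft 3 3072) (Nat.lor (Nat.shiftLeft 3 6400) (Nat.lor (Nat.shiftLeft 3 7040) ((Nat.shiftLeft 3 7168))))))))))))) (Nat.shiftLeft (
  Nat.lor (Nat.lor (Nat.shiftLeft 3 0) (Nat.lor (Nat.shiftLeft 3 256) (Nat.lor (Nat.shiftLeft 3 768) (Nat.lor (Nat.shiftLeft 3 1792) (Nat.lor (Nat.shiftLeft 3 2560) (Nat.lor (Nat.shiftLeft 3 3328) (Nat.lor (Nat.shiftLeft 3 4096) (Nat.lor (Nat.shiftLeft 3 4864) (Nat.lor (Nat.shiftLeft 3 5632) (Nat.lor (Nat.shiftLeft 3 6784) (Nat.lor (Nat.shiftLeft 3 7296) ((Nat.shiftLeft 3 7424))))))))))))) (Nat.shiftLeft (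
  Nat.lor (Nat.lor (Nat.shiftLeft 3 0) (Nat.lor (Nat.shiftLeft 3 384) (Nat.lor (Nat.shiftLeft 3 896) (Nat.lor (Nat.shiftLeft 3 3200) (Nat.lor (Nat.shiftLeft 3 3328) (Nat.lor (Nat.shiftLeft 3 3456) (Nat.lor (Nat.shiftLeft 3 3584) (Nat.lor (Nat.shiftLeft 3 3712) (Nat.lor (Nat.shiftLeft 3 3840) (Nat.lor (Nat.shiftLeft 3 7168) (Nat.lor (Nat.shiftLeft 3 7552) ((Nat.shiftLeft 3 7680))))))))))))) (Nat.shiftLeft (
  Nat.lor (Nat.lor (Nat.shiftLeft 3 0) (Nat.lor (Nat.shiftLeft 3 512) (Nat.lor (Nat.shiftLeft 3 1024) (Nat.lor (Nat.shiftLeft 3 1920) (Nat.lor (Nat.shiftLeft 3 2688) (Nat.lor (Nat.shiftLeft 3 3456) (Nat.lor (Nat.shiftLeft 3 4224) (Nat.lor (Nat.shiftLeft 3 4992) (Nat.lor (Nat.shiftLeft 3 5760) (Nat.lor (Nat.shiftLeft 3 7424) (Nat.lor (Nat.shiftLeft 3 7808) ((Nat.shiftLeft 3 7936))))))))))))) (Nat.shiftLeft (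
  Nat.lor (Nat.lor (Nat.shiftLeft 3 0) (Nat.lor (Nat.shiftLeft 3 640) (Nat.lor (Nat.shiftLeft 3 1152) (Nat.lor (Nat.shiftLeft 3 3968) (Nat.lor (Nat.shiftLeft 3 4096) (Nat.lor (Nat.shiftLeft 3 4224) (Nat.lor (Nat.shiftLeft 3 4352) (Nat.lor (Nat.shiftLeft 3 4480) (Nat.lor (Nat.shiftLeft 3 4608) (Nat.lor (Nat.shiftLeft 3 7680) (Nat.lor (Nat.shiftLeft 3 8064) ((Nat.shiftLeft 3 8192))))))))))))) (Nat.shiftLeft (
  Nat.lor (Nat.lor (Nat.shiftLeft 3 0) (Nat.lor (Nat.shiftLeft 3 768) (Nat.lor (Nat.shiftLeft 3 1280) (Nat.lor (Nat.shiftLeft 3 2048) (Nat.lor (Nat.shiftLeft 3 2816) (Nat.lor (Nat.shiftLeft 3 3584) (Nat.lor (Nat.shiftLeft 3 4352) (Nat.lor (Nat.shiftLeft 3 5120) (Nat.lor (Nat.shiftLeft 3 5888) (Nat.lor (Nat.shiftLeft 3 7936) (Nat.lor (Nat.shiftLeft 3 8320) ((Nat.shiftLeft 3 8448))))))))))))) (Nat.shiftLeft (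
  Nat.lor (Nat.lor (Nat.shiftLeft 3 0) (Nat.lor (Nat.shiftLeft 3 896) (Nat.lor (Nat.shiftLeft 3 1408) (Nat.lor (Nat.shiftLeft 3 4736) (Nat.lor (Nat.shiftLeft 3 4864) (Nat.lor (Nat.shiftLeft 3 4992) (Nat.lor (Nat.shiftLeft 3 5120) (Nat.lor (Nat.shiftLeft 3 5248) (Nat.lor (Nat.shiftLeft 3 5376) (Nat.lor (Nat.shiftLeft 3 8192) (Nat.lor (Nat.shiftLeft 3 8576) ((Nat.shiftLeft 3 8704))))))))))))) (Nat.shiftLeft (
  Nat.lor (Nat.lor (Nat.shiftLeft 3 0) (Nat.lor (Nat.shiftLeft 3 1024) (Nat.lor (Nat.shiftLeft 3 1536) (Nat.lor (Nat.shiftLeft 3 2176) (Nat.lor (Nat.shiftLeft 3 2944) (Nat.lor (Nat.shiftLeft 3 3712) (Nat.lor (Nat.shiftLeft 3 4480) (Nat.lor (Nat.shiftLeft 3 5248) (Nat.lor (Nat.shiftLeft 3 6016) (Nat.lor (Nat.shiftLeft 3 8448) (Nat.lor (Nat.shiftLeft 3 8832) ((Nat.shiftLeft 3 8960))))))))))))) (Nat.shiftLeft (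
  Nat.lor (Nat.lor (Nat.shiftLeft 3 0) (Nat.lor (Nat.shiftLeft 3 128) (Nat.lor (Nat.shiftLeft 3 1152) (Nat.lor (Nat.shiftLeft 3 5504) (Nat.lor (Nat.shiftLeft 3 5632) (Nat.lor (Nat.shiftLeft 3 5760) (Nat.lor (Nat.shiftLeft 3 5888) (Nat.lor (Nat.shiftLeft 3 6016) (Nat.lor (Nat.shiftLeft 3 6144) (Nat.lor (Nat.shiftLeft 3 6528) (Nat.lor (Nat.shiftLeft 3 8704) ((Nat.shiftLeft 3 9088))))))))))))) (Nat.shiftLeft (
  Nat.lor (Nat.lor (Nat.shiftLeft 3 0) (Nat.lor (Nat.shiftLeft 3 256) (Nat.lor (Nat.shiftLeft 3 1280) (Nat.lor (Nat.shiftLeft 3 2304) (Nat.lor (Nat.shiftLeft 3 3072) (Nat.lor (Nat.shiftLeft 3 3840) (Nat.lor (Nat.shiftLeft 3 4608) (Nat.lor (Nat.shiftLeft 3 5376) (Nat.lor (Nat.shiftLeft 3 6144) (Nat.lor (Nat.shiftLeft 3 6912) (Nat.lor (Nat.shiftLeft 3 8960) ((Nat.shiftLeft 3 9216))))))))))))) (Nat.shiftLeft (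
  Nat.lor (Nat.lor (Nat.shiftLeft 3 128) (Nat.lor (Nat.shiftLeft 3 256) (Nat.lor (Nat.shiftLeft 3 1792) (Nat.lor (Nat.shiftLeft 3 2304) (Nat.lor (Nat.shiftLeft 3 2432) ((Nat.shiftLeft 3 5504))))))) (Nat.shiftLeft (
  Nat.lor (Nat.lor (Nat.shiftLeft 3 128) (Nat.lor (Nat.shiftLeft 3 512) (Nat.lor (Nat.shiftLeft 3 1664) (Nat.lor (Nat.shiftLeft 3 1920) (Nat.lor (Nat.shiftLeft 3 2560) ((Nat.shiftLeft 3 5632))))))) (Nat.shiftLeft (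
  Nat.lor (Nat.lor (Nat.shiftLeft 3 128) (Nat.lor (Nat.shiftLeft 3 768) (Nat.lor (Nat.shiftLeft 3 1792) (Nat.lor (Nat.shiftLeft 3 2048) (Nat.lor (Nat.shiftLeft 3 2688) ((Nat.shiftLeft 3 5760))))))) (Nat.shiftLeft (
  Nat.lor (Nat.lor (Nat.shiftLeft 3 128) (Nat.lor (Nat.shiftLeft 3 1024) (Nat.lor (Nat.shiftLeft 3 1920) (Nat.lor (Nat.shiftLeft 3 2176) (Nat.lor (Nat.shiftLeft 3 2816) ((Nat.shiftLeft 3 5888))))))) (Nat.shiftLeft (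
  Nat.lor (Nat.lor (Nat.shiftLeft 3 128) (Nat.lor (Nat.shiftLeft 3 1280) (Nat.lor (Nat.shiftLeft 3 2048) (Nat.lor (Nat.shiftLeft 3 2304) (Nat.lor (Nat.shiftLeft 3 2944) ((Nat.shiftLeft 3 6016))))))) (Nat.shiftLeft (
  Nat.lor (Nat.lor (Nat.shiftLeft 3 128) (Nat.lor (Nat.shiftLeft 3 1536) (Nat.lor (Nat.shiftLeft 3 1664) (Nat.lor (Nat.shiftLeft 3 2176) (Nat.lor (Nat.shiftLeft 3 3072) ((Nat.shiftLeft 3 6144))))))) (Nat.shiftLeft (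
  Nat.lor (Nat.lor (Nat.shiftLeft 3 256) (Nat.lor (Nat.shiftLeft 3 384) (Nat.lor (Nat.shiftLeft 3 1664) (Nat.lor (Nat.shiftLeft 3 2560) (Nat.lor (Nat.shiftLeft 3 3072) ((Nat.shiftLeft 3 3200))))))) (Nat.shiftLeft (
  Nat.lor (Nat.lor (Nat.shiftLeft 3 384) (Nat.lor (Nat.shiftLeft 3 512) (Nat.lor (Nat.shiftLeft 3 1792) (Nat.lor (Nat.shiftLeft 3 2432) (Nat.lor (Nat.shiftLeft 3 2688) ((Nat.shiftLeft 3 3328))))))) (Nat.shiftLeft (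
  Nat.lor (Nat.lor (Nat.shiftLeft 3 384) (Nat.lor (Nat.shiftLeft 3 768) (Nat.lor (Nat.shiftLeft 3 1920) (Nat.lor (Nat.shiftLeft 3 2560) (Nat.lor (Nat.shiftLeft 3 2816) ((Nat.shiftLeft 3 3456))))))) (Nat.shiftLeft (
  Nat.lor (Nat.lor (Nat.shiftLeft 3 384) (Nat.lor (Nat.shiftLeft 3 1024) (Nat.lor (Nat.shiftLeft 3 2048) (Nat.lor (Nat.shiftLeft 3 2688) (Nat.lor (Nat.shiftLeft 3 2944) ((Nat.shiftLeft 3 3584))))))) (Nat.shiftLeft (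
  Nat.lor (Nat.lor (Nat.shiftLeft 3 384) (Nat.lor (Nat.shiftLeft 3 1280) (Nat.lor (Nat.shiftLeft 3 2176) (Nat.lor (Nat.shiftLeft 3 2816) (Nat.lor (Nat.shiftLeft 3 3072) ((Nat.shiftLeft 3 3712))))))) (Nat.shiftLeft (
  Nat.lor (Nat.lor (Nat.shiftLeft 3 384) (Nat.lor (Nat.shiftLeft 3 1536) (Nat.lor (Nat.shiftLeft 3 2304) (Nat.lor (Nat.shiftLeft 3 2432) (Nat.lor (Nat.shiftLeft 3 2944) ((Nat.shiftLeft 3 3840))))))) (Nat.shiftLeft (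
  Nat.lor (Nat.lor (Nat.shiftLeft 3 256) (Nat.lor (Nat.shiftLeft 3 640) (Nat.lor (Nat.shiftLeft 3 2432) (Nat.lor (Nat.shiftLeft 3 3328) (Nat.lor (Nat.shiftLeft 3 3840) ((Nat.shiftLeft 3 3968))))))) (Nat.shiftLeft (
  Nat.lor (Nat.lor (Nat.shiftLeft 3 512) (Nat.lor (Nat.shiftLeft 3 640) (Nat.lor (Nat.shiftLeft 3 2560) (Nat.lor (Nat.shiftLeft 3 3200) (Nat.lor (Nat.shiftLeft 3 3456) ((Nat.shiftLeft 3 4096))))))) (Nat.shiftLeft (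
  Nat.lor (Nat.lor (Nat.shiftLeft 3 640) (Nat.lor (Nat.shiftLeft 3 768) (Nat.lor (Nat.shiftLeft 3 2688) (Nat.lor (Nat.shiftLeft 3 3328) (Nat.lor (Nat.shiftLeft 3 3584) ((Nat.shiftLeft 3 4224))))))) (Nat.shiftLeft (
  Nat.lor (Nat.lor (Nat.shiftLeft 3 640) (Nat.lor (Nat.shiftLeft 3 1024) (Nat.lor (Nat.shiftLeft 3 2816) (Nat.lor (Nat.shiftLeft 3 3456) (Nat.lor (Nat.shiftLeft 3 3712) ((Nat.shiftLeft 3 4352))))))) (Nat.shiftLeft (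
  Nat.lor (Nat.lor (Nat.shiftLeft 3 640) (Nat.lor (Nat.shiftLeft 3 1280) (Nat.lor (Nat.shiftLeft 3 2944) (Nat.lor (Nat.shiftLeft 3 3584) (Nat.lor (Nat.shiftLeft 3 3840) ((Nat.shiftLeft 3 4480))))))) (Nat.shiftLeft (
  Nat.lor (Nat.lor (Nat.shiftLeft 3 640) (Nat.lor (Nat.shiftLeft 3 1536) (Nat.lor (Nat.shiftLeft 3 3072) (Nat.lor (Nat.shiftLeft 3 3200) (Nat.lor (Nat.shiftLeft 3 3712) ((Nat.shiftLeft 3 4608))))))) (Nat.shiftLeft (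
  Nat.lor (Nat.lor (Nat.shiftLeft 3 256) (Nat.lor (Nat.shiftLeft 3 896) (Nat.lor (Nat.shiftLeft 3 3200) (Nat.lor (Nat.shiftLeft 3 4096) (Nat.lor (Nat.shiftLeft 3 4608) ((Nat.shiftLeft 3 4736))))))) (Nat.shiftLeft (
  Nat.lor (Nat.lor (Nat.shiftLeft 3 512) (Nat.lor (Nat.shiftLeft 3 896) (Nat.lor (Nat.shiftLeft 3 3328) (Nat.lor (Nat.shiftLeft 3 3968) (Nat.lor (Nat.shiftLeft 3 4224) ((Nat.shiftLeft 3 4864))))))) (Nat.shiftLeft (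
  Nat.lor (Nat.lor (Nat.shiftLeft 3 768) (Nat.lor (Nat.shiftLeft 3 896) (Nat.lor (Nat.shiftLeft 3 3456) (Nat.lor (Nat.shiftLeft 3 4096) (Nat.lor (Nat.shiftLeft 3 4352) ((Nat.shiftLeft 3 4992))))))) (Nat.shiftLeft (
  Nat.lor (Nat.lor (Nat.shiftLeft 3 896) (Nat.lor (Nat.shiftLeft 3 1024) (Nat.lor (Nat.shiftLeft 3 3584) (Nat.lor (Nat.shiftLeft 3 4224) (Nat.lor (Nat.shiftLeft 3 4480) ((Nat.shiftLeft 3 5120))))))) (Nat.shiftLeft (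
  Nat.lor (Nat.lor (Nat.shiftLeft 3 896) (Nat.lor (Nat.shiftLeft 3 1280) (Nat.lor (Nat.shiftLeft 3 3712) (Nat.lor (Nat.shiftLeft 3 4352) (Nat.lor (Nat.shiftLeft 3 4608) ((Nat.shiftLeft 3 5248))))))) (Nat.shiftLeft (
  Nat.lor (Nat.lor (Nat.shiftLeft 3 896) (Nat.lor (Nat.shiftLeft 3 1536) (Nat.lor (Nat.shiftLeft 3 3840) (Nat.lor (Nat.shiftLeft 3 3968) (Nat.lor (Nat.shiftLeft 3 4480) ((Nat.shiftLeft 3 5376))))))) (Nat.shiftLeft (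
  Nat.lor (Nat.lor (Nat.shiftLeft 3 256) (Nat.lor (Nat.shiftLeft 3 1152) (Nat.lor (Nat.shiftLeft 3 3968) (Nat.lor (Nat.shiftLeft 3 4864) (Nat.lor (Nat.shiftLeft 3 5376) ((Nat.shiftLeft 3 5504))))))) (Nat.shiftLeft (
  Nat.lor (Nat.lor (Nat.shiftLeft 3 512) (Nat.lor (Nat.shiftLeft 3 1152) (Nat.lor (Nat.shiftLeft 3 4096) (Nat.lor (Nat.shiftLeft 3 4736) (Nat.lor (Nat.shiftLeft 3 4992) ((Nat.shiftLeft 3 5632))))))) (Nat.shiftLeft (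
  Nat.lor (Nat.lor (Nat.shiftLeft 3 768) (Nat.lor (Nat.shiftLeft 3 1152) (Nat.lor (Nat.shiftLeft 3 4224) (Nat.lor (Nat.shiftLeft 3 4864) (Nat.lor (Nat.shiftLeft 3 5120) ((Nat.shiftLeft 3 5760))))))) (Nat.shiftLeft (
  Nat.lor (Nat.lor (Nat.shiftLeft 3 1024) (Nat.lor (Nat.shiftLeft 3 1152) (Nat.lor (Nat.shiftLeft 3 4352) (Nat.lor (Nat.shiftLeft 3 4992) (Nat.lor (Nat.shiftLeft 3 5248) ((Nat.shiftLeft 3 5888))))))) (Nat.shiftLeft (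
  Nat.lor (Nat.lor (Nat.shiftLeft 3 1152) (Nat.lor (Nat.shiftLeft 3 1280) (Nat.lor (Nat.shiftLeft 3 4480) (Nat.lor (Nat.shiftLeft 3 5120) (Nat.lor (Nat.shiftLeft 3 5376) ((Nat.shiftLeft 3 6016))))))) (Nat.shiftLeft (
  Nat.lor (Nat.lor (Nat.shiftLeft 3 1152) (Nat.lor (Nat.shiftLeft 3 1536) (Nat.lor (Nat.shiftLeft 3 4608) (Nat.lor (Nat.shiftLeft 3 4736) (Nat.lor (Nat.shiftLeft 3 5248) ((Nat.shiftLeft 3 6144))))))) (Nat.shiftLeft (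
  Nat.lor (Nat.lor (Nat.shiftLeft 3 256) (Nat.lor (Nat.shiftLeft 3 1408) (Nat.lor (Nat.shiftLeft 3 1664) (Nat.lor (Nat.shiftLeft 3 4736) (Nat.lor (Nat.shiftLeft 3 5632) ((Nat.shiftLeft 3 6144))))))) (Nat.shiftLeft (
  Nat.lor (Nat.lor (Nat.shiftLeft 3 512) (Nat.lor (Nat.shiftLeft 3 1408) (Nat.lor (Nat.shiftLeft 3 1792) (Nat.lor (Nat.shiftLeft 3 4864) (Nat.lor (Nat.shiftLeft 3 5504) ((Nat.shiftLeft 3 5760))))))) (Nat.shiftLeft (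
  Nat.lor (Nat.lor (Nat.shiftLeft 3 768) (Nat.lor (Nat.shiftLeft 3 1408) (Nat.lor (Nat.shiftLeft 3 1920) (Nat.lor (Nat.shiftLeft 3 4992) (Nat.lor (Nat.shiftLeft 3 5632) ((Nat.shiftLeft 3 5888))))))) (Nat.shiftLeft (
  Nat.lor (Nat.lor (Nat.shiftLeft 3 1024) (Nat.lor (Nat.shiftLeft 3 1408) (Nat.lor (Nat.shiftLeft 3 2048) (Nat.lor (Nat.shiftLeft 3 5120) (Nat.lor (Nat.shiftLeft 3 5760) ((Nat.shiftLeft 3 6016))))))) (Nat.shiftLeft (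
  Nat.lor (Nat.lor (Nat.shiftLeft 3 1280) (Nat.lor (Nat.shiftLeft 3 1408) (Nat.lor (Nat.shiftLeft 3 2176) (Nat.lor (Nat.shiftLeft 3 5248) (Nat.lor (Nat.shiftLeft 3 5888) ((Nat.shiftLeft 3 6144))))))) (Nat.shiftLeft (
  Nat.lor (Nat.lor (Nat.shiftLeft 3 1408) (Nat.lor (Nat.shiftLeft 3 1536) (Nat.lor (Nat.shiftLeft 3 2304) (Nat.lor (Nat.shiftLeft 3 5376) (Nat.lor (Nat.shiftLeft 3 5504) ((Nat.shiftLeft 3 6016))))))) (Nat.shiftLeft (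
  Nat.lor (Nat.lor (Nat.shiftLeft 3 128) (Nat.lor (Nat.shiftLeft 3 6400) ((Nat.shiftLeft 3 6528)))) (Nat.shiftLeft (
  Nat.lor (Nat.lor (Nat.shiftLeft 3 128) (Nat.lor (Nat.shiftLeft 3 384) (Nat.lor (Nat.shiftLeft 3 6272) ((Nat.shiftLeft 3 7040))))) (Nat.shiftLeft (
  Nat.lor (Nat.lor (Nat.shiftLeft 3 128) (Nat.lor (Nat.shiftLeft 3 1408) (Nat.lor (Nat.shiftLeft 3 6272) ((Nat.shiftLeft 3 9088))))) (Nat.shiftLeft (
  Nat.lor (Nat.lor (Nat.shiftLeft 3 256) (Nat.lor (Nat.shiftLeft 3 6784) ((Nat.shiftLeft 3 6912)))) (Nat.shiftLeft (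
  Nat.lor (Nat.lor (Nat.shiftLeft 3 256) (Nat.lor (Nat.shiftLeft 3 512) (Nat.lor (Nat.shiftLeft 3 6656) ((Nat.shiftLeft 3 7296))))) (Nat.shiftLeft (
  Nat.lor (Nat.lor (Nat.shiftLeft 3 256) (Nat.lor (Nat.shiftLeft 3 1536) (Nat.lor (Nat.shiftLeft 3 6656) ((Nat.shiftLeft 3 9216))))) (Nat.shiftLeft (
  Nat.lor (Nat.lor (Nat.shiftLeft 3 384) (Nat.lor (Nat.shiftLeft 3 6400) ((Nat.shiftLeft 3 7168)))) (Nat.shiftLeft (
  Nat.lor (Nat.lor (Nat.shiftLeft 3 384) (Nat.lor (Nat.shiftLeft 3 640) (Nat.lor (Nat.shiftLeft 3 7040) ((Nat.shiftLeft 3 7552))))) (Nat.shiftLeft (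
  Nat.lor (Nat.lor (Nat.shiftLeft 3 512) (Nat.lor (Nat.shiftLeft 3 6784) ((Nat.shiftLeft 3 7424)))) (Nat.shiftLeft (
  Nat.lor (Nat.lor (Nat.shiftLeft 3 512) (Nat.lor (Nat.shiftLeft 3 768) (Nat.lor (Nat.shiftLeft 3 7296) ((Nat.shiftLeft 3 7808))))) (Nat.shiftLeft (
  Nat.lor (Nat.lor (Nat.shiftLeft 3 640) (Nat.lor (Nat.shiftLeft 3 7168) ((Nat.shiftLeft 3 7680)))) (Nat.shiftLeft (
  Nat.lor (Nat.lor (Nat.shiftLeft 3 640) (Nat.lor (Nat.shiftLeft 3 896) (Nat.lor (Nat.shiftLeft 3 7552) ((Nat.shiftLeft 3 8064))))) (Nat.shiftLeft (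
  Nat.lor (Nat.lor (Nat.shiftLeft 3 768) (Nat.lor (Nat.shiftLeft 3 7424) ((Nat.shiftLeft 3 7936)))) (Nat.shiftLeft (
  Nat.lor (Nat.lor (Nat.shiftLeft 3 768) (Nat.lor (Nat.shiftLeft 3 1024) (Nat.lor (Nat.shiftLeft 3 7808) ((Nat.shiftLeft 3 8320))))) (Nat.shiftLeft (
  Nat.lor (Nat.lor (Nat.shiftLeft 3 896) (Nat.lor (Nat.shiftLeft 3 7680) ((Nat.shiftLeft 3 8192)))) (Nat.shiftLeft (
  Nat.lor (Nat.lor (Nat.shiftLeft 3 896) (Nat.lor (Nat.shiftLeft 3 1152) (Nat.lor (Nat.shiftLeft 3 8064) ((Nat.shiftLeft 3 8576))))) (Nat.shiftLeft (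
  Nat.lor (Nat.lor (Nat.shiftLeft 3 1024) (Nat.lor (Nat.shiftLeft 3 7936) ((Nat.shiftLeft 3 8448)))) (Nat.shiftLeft (
  Nat.lor (Nat.lor (Nat.shiftLeft 3 1024) (Nat.lor (Nat.shiftLeft 3 1280) (Nat.lor (Nat.shiftLeft 3 8320) ((Nat.shiftLeft 3 8832))))) (Nat.shiftLeft (
  Nat.lor (Nat.lor (Nat.shiftLeft 3 1152) (Nat.lor (Nat.shiftLeft 3 8192) ((Nat.shiftLeft 3 8704)))) (Nat.shiftLeft (
  Nat.lor (Nat.lor (Nat.shiftLeft 3 1152) (Nat.lor (Nat.shiftLeft 3 1408) (Nat.lor (Nat.shiftLeft 3 8576) ((Nat.shiftLeft 3 9088))))) (Nat.shiftLeft (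
  Nat.lor (Nat.lor (Nat.shiftLeft 3 1280) (Nat.lor (Nat.shiftLeft 3 8448) ((Nat.shiftLeft 3 8960)))) (Nat.shiftLeft (
  Nat.lor (Nat.lor (Nat.shiftLeft 3 1280) (Nat.lor (Nat.shiftLeft 3 1536) (Nat.lor (Nat.shiftLeft 3 8832) ((Nat.shiftLeft 3 9216))))) (Nat.shiftLeft (
  Nat.lor (Nat.lor (Nat.shiftLeft 3 1408) (Nat.lor (Nat.shiftLeft 3 6528) ((Nat.shiftLeft 3 8704)))) (Nat.shiftLeft (
  Nat.lor (Nat.lor (Nat.shiftLeft 3 1536) (Nat.lor (Nat.shiftLeft 3 6912) ((Nat.shiftLeft 3 8960)))) (Nat.shiftLeft (0) 9344)) 9344)) 9344)) 9344)) 9344)) 9344)) 9344)) 9344)) 9344)) 9344)) 9344)) 9344)) 9344)) 9344)) 9344)) 9344)) 9344)) 9344)) 9344)) 9344)) 9344)) 9344)) 9344)) 9344)) 9344)) 9344)) 9344)) 9344)) 9344)) 9344)) 9344)) 9344)) 9344)) 9344)) 9344)) 9344)) 9344)) 9344)) 9344)) 9344)) 9344)) 9344)) 9344)) 9344)) 9344)) 9344)) 9344)) 9344)) 9344)) 9344))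 9344)) 9344)) 9344)) 9344)) 9344)) 9344)) 9344)) 9344)) 9344)) 9344)) 9344)) 9344)) 9344)) 9344)) 9344)) 9344)) 9344)) 9344)) 9344)) 9344)) 9344)) 9344)) 9344)

end Vale.Agent.P032.H286.E
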