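import Vale.Agent.P032.H286.Z73
import Vale.Agent.P032.H61.TabF

/-!
# P032: words refuted by images of certified patterns (level 2), 73 points

* `Wd E t P` : a query with base clauses `E`, the units of `P` and images of the patterns of the tree `t` refutes `P`,
* `wd_nil`, `wd_cons` : lists, `dead_wd` : such a pattern is dead, `tr_wd` : **the tree of a list of such patterns**.
-/

namespace Vale.Agent.P032.H286.E

open Vale.Agent.P032.H820.K Vale.Agent.P032.H357.MK Vale.Agent.P032.H61 Vale.Agent.P032.H357 Vale.Agent.P032.H892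
open Vale.Agent.P032.H61.TF

theorem tbm_eq : TBm = TF.TB := by decide +kernel
theorem tcm_eq : TCm = TF.TC := by decide +kernel

/-- the pattern `P` is refuted by a query with images of the patterns of `t` -/
def Wd (E : List (List ℕ)) (t : PTr) (P : List ℕ) : Prop :=
  ∃ cs : List ℕ, Qy 73 73 TBm (cs.map (eC (E ++ uns P) t PX 120 TG))

theorem wd_nil {E : List (List ℕ)} {t : PTr} : ∀ P ∈ ([] : List (List ℕ)), Wd E t P :=
  fun _ h => absurd h List.not_mem_nil

theorem wd_cons {E : List (List ℕ)} {t : PTr} {P : List ℕ} {L : List (List ℕ)} (h : Wd E t P)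
    (hL : ∀ P ∈ L, Wd E t P) : ∀ P' ∈ P :: L, Wd E t P' := by
  intro P' h'
  rcases List.mem_cons.1 h' with rfl | h'
  · exact h
  · exact hL _ h'

/-- **such a pattern is dead** -/
theorem dead_wd {C C' : Fr → Prop} (hOk : ∀ F, C' F → FOk (kap TF.TC) (cxv 73 TF.TC) F) (hCC : ∀ F, C' F → C F)
    (hCr : ∀ F, C F → C (F.rot (ptb TG 1))) (hCm : ∀ F, C F → C (F.mir (ptb TG 6))) (hPT : OkPT C PX 120) {tr : PTr}
    (ht : tr.All fun p => Dead (kap TF.TC) C (pk p) ∧ Vl (Gp 73 TF.TC) (Ce 73 TF.TC) (pk p))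
    {e : List (List ℕ)} (he : ∀ F M, C' F → Mdl (tb (le_refl 73)) F M → ∀ c ∈ e, Ho M c) {P : List ℕ}
    (hv : Vl (Gp 73 TF.TC) (Ce 73 TF.TC) P) (hq : Wd e tr P) : Dead (kap TF.TC) C' P := by
  obtain ⟨cs, hq⟩ := hq
  rw [tbm_eq] at hq
  exact dead_qy (tb (le_refl 73)) g73 hOk hCC hCr hCm hPT ht he hv hq

/-- **the tree of a list of such patterns** -/
theorem tr_wd {C C' : Fr → Prop} (hOk : ∀ F, C' F → FOk (kap TF.TC) (cxv 73 TF.TC) F) (hCC : ∀ F, C' F → C F)
    (hCr : ∀ F, C F → C (F.rot (ptb TG 1))) (hCm : ∀ F, C F → C (F.mir (ptb TG 6))) (hPT : OkPT C PX 120) {tr : PTr}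
    (ht : tr.All fun p => Dead (kap TF.TC) C (pk p) ∧ Vl (Gp 73 TF.TC) (Ce 73 TF.TC) (pk p))
    {e : List (List ℕ)} (he : ∀ F M, C' F → Mdl (tb (le_refl 73)) F M → ∀ c ∈ e, Ho M c) {t : PTr} {L : List (List ℕ)}
    (h : chT 73 73 TCm t L = true) (hL : ∀ P ∈ L, Wd e tr P) :
    t.All fun p => Dead (kap TF.TC) C' (pk p) ∧ Vl (Gp 73 TF.TC) (Ce 73 TF.TC) (pk p) := by
  rw [tcm_eq] at h
  refine (PTr.all_of (acc := []) fun x hx => ?_).1
  obtain ⟨h1, h2⟩ := chL_spec h x hx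
  exact ⟨dead_wd hOk hCC hCr hCm hPT ht he h2 (hL _ h1), h2⟩

end Vale.Agent.P032.H286.E
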